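import Mathlib

/-!
# One parameter groups in Banach algebras
-/

namespace Vale.Agent.P228Z

open Topology Filter Set NormedSpace
open scoped ContDiff

variable {A : Type*} [NormedRing A] [NormedAlgebra ℝ A] [CompleteSpace A]

theorem onepar_exp (T : ℝ → A) (hc : Continuous T) (h0 : T 0 = 1)
    (hm : ∀ s t, T (s + t) = T s * T t) :
    ∃ a, HasDerivAt T a 0 ∧ ∀ t, T t = exp (t • a) := by
  let I : ℝ → A := fun x => ∫ u in (0 : ℝ)..x, T u
  have hI : ∀ x, HasDerivAt I (T x) x := fun x => (hc.integral_hasStrictDerivAt 0 x).hasDerivAt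
  have h1 : Tendsto (fun δ : ℝ => δ⁻¹ • I δ) (𝓝[≠] 0) (𝓝 1) := by
    have := hasDerivAt_iff_tendsto_slope_zero.1 (hI 0)
    simpa [I, h0] using this
  obtain ⟨δ, hδ1, hδ2⟩ := ((h1.eventually (Units.isOpen.mem_nhds isUnit_one)).and
    self_mem_nhdsWithin).exists
  obtain ⟨u, hu⟩ := hδ1
  have hδ : δ ≠ 0 := hδ2
  have h2 : ∀ t, T t = (δ⁻¹ • (I (t + δ) - I t)) * (↑u⁻¹ : A) := by
    intro t
    have a1 : I (t + δ) - I t = T t * I δ := by
      simp only [I]
      rw [intervalIntegral.integral_interval_sub_left (hc.intervalIntegrable _ _)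
        (hc.intervalIntegrable _ _)]
      have a2 := intervalIntegral.integral_comp_add_left (a := 0) (b := δ) T t
      rw [add_zero] at a2
      rw [← a2]
      simp only [hm]
      exact (ContinuousLinearMap.mul ℝ A (T t)).intervalIntegral_comp_comm
        (hc.intervalIntegrable _ _)
    rw [a1, ← mul_smul_comm, ← hu, mul_assoc, Units.mul_inv, mul_one]
  have h3 : HasDerivAt T ((δ⁻¹ • (T δ - T 0)) * (↑u⁻¹ : A)) 0 := by
    have a1 : HasDerivAt (fun t => I (t + δ)) (T δ) 0 := by
      have := hI (0 + δ)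
      rw [zero_add] at this
      exact HasDerivAt.comp_add_const 0 δ (by simpa using this)
    have a2 := ((a1.sub (hI 0)).const_smul δ⁻¹).mul_const (↑u⁻¹ : A)
    exact a2.congr_of_eventuallyEq (Eventually.of_forall h2)
  refine ⟨_, h3, fun t => ?_⟩
  set a := (δ⁻¹ • (T δ - T 0)) * (↑u⁻¹ : A)
  have h4 : ∀ s, HasDerivAt T (T s * a) s := by
    intro s
    have a1 : HasDerivAt (fun x => T (x - s)) a s :=
      HasDerivAt.comp_sub_const s s (by simpa using h3)
    refine (a1.const_mul (T s)).congr_of_eventuallyEq (Eventually.of_forall fun x => ?_)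
    simp only [← hm, add_sub_cancel]
  have h5 : ∀ x, HasDerivAt (fun x => T (t - x) * exp (x • a)) 0 x := by
    intro x
    have a1 : HasDerivAt (fun x => T (t - x)) (-(T (t - x) * a)) x := by
      simpa using HasDerivAt.comp_const_sub t x (h4 (t - x))
    have a2 := a1.mul (hasDerivAt_exp_smul_const' (𝕂 := ℝ) a x)
    have e : -(T (t - x) * a) * exp (x • a) + T (t - x) * (a * exp (x • a)) = 0 := by
      rw [neg_mul, mul_assoc, neg_add_cancel]
    rw [e] at a2
    exact a2
  have h6 := is_const_of_deriv_eq_zero (fun x => (h5 x).differentiableAt)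
    (fun x => (h5 x).deriv) 0 t
  simpa [h0] using h6

/-- The operator `(1 - exp (-a)) / a`. -/
noncomputable def Phi (a : A) : A := ∫ s in (0 : ℝ)..1, exp ((-s) • a)

theorem contDiff_exp' : ContDiff ℝ ∞ (exp : A → A) :=
  contDiff_iff_contDiffAt.2 fun x => (exp_analytic (𝕂 := ℝ) x).contDiffAt

theorem contDiff_Phi : ContDiff ℝ ∞ (Phi : A → A) := by
  let L0 : A →ₗ[ℝ] C(Icc (0 : ℝ) 1, A) :=
    { toFun := fun a => ⟨fun s => (-(s : ℝ)) • a, by fun_prop⟩
      map_add' := fun a b => by ext s; simp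
      map_smul' := fun c a => by ext s; simp [smul_comm c] }
  let L : A →L[ℝ] C(Icc (0 : ℝ) 1, A) := L0.mkContinuous 1 fun a => by
    refine (ContinuousMap.norm_le _ (by positivity)).2 fun s => ?_
    show ‖(-(s : ℝ)) • a‖ ≤ _
    rw [norm_smul, norm_neg, Real.norm_eq_abs, abs_of_nonneg s.2.1]
    exact mul_le_mul_of_nonneg_right s.2.2 (norm_nonneg _)
  have hint : ∀ f : C(Icc (0 : ℝ) 1, A),
      IntervalIntegrable (fun s => f (projIcc 0 1 zero_le_one s)) MeasureTheory.volume 0 1 :=
    fun f => (f.continuous.comp continuous_projIcc).intervalIntegrable _ _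
  let I0 : C(Icc (0 : ℝ) 1, A) →ₗ[ℝ] A :=
    { toFun := fun f => ∫ s in (0 : ℝ)..1, f (projIcc 0 1 zero_le_one s)
      map_add' := fun f g => by
        simp only [ContinuousMap.add_apply]
        exact intervalIntegral.integral_add (hint f) (hint g)
      map_smul' := fun c f => by
        simp only [ContinuousMap.smul_apply, RingHom.id_apply]
        exact intervalIntegral.integral_smul c _ }
  let I : C(Icc (0 : ℝ) 1, A) →L[ℝ] A := I0.mkContinuous 1 fun f => by
    have := intervalIntegral.norm_integral_le_of_norm_le_const (a := 0) (b := 1) (C := ‖f‖)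
      (f := fun s => f (projIcc 0 1 zero_le_one s)) fun s _ => f.norm_coe_le_norm _
    show ‖∫ s in (0 : ℝ)..1, f (projIcc 0 1 zero_le_one s)‖ ≤ _
    simpa using this
  have h : (Phi : A → A) = fun a => I (exp (L a)) := by
    ext a
    show _ = ∫ s in (0 : ℝ)..1, (exp (L a)) (projIcc 0 1 zero_le_one s)
    unfold Phi
    refine intervalIntegral.integral_congr fun s hs => ?_
    rw [uIcc_of_le zero_le_one] at hs
    let ev : C(Icc (0 : ℝ) 1, A) →+* A :=
      { toFun := fun f => f ⟨s, hs⟩
        map_one' := rfl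
        map_mul' := fun _ _ => rfl
        map_zero' := rfl
        map_add' := fun _ _ => rfl }
    have h1 := map_exp_of_mem_ball (𝕂 := ℝ) ev (continuous_eval_const _) (L a)
      ((expSeries_radius_eq_top ℝ C(Icc (0 : ℝ) 1, A)).symm ▸ edist_lt_top _ _)
    simp only [projIcc_of_mem zero_le_one hs]
    exact h1.symm
  rw [h]
  exact I.contDiff.comp (contDiff_exp'.comp L.contDiff)

end Vale.Agent.P228Z
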