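import Vale.Agent.P228Z.Exp
import Vale.Agent.P228Z.Alg

/-!
# The adjoint representation and the derivative of the exponential map
-/

set_option linter.unusedSectionVars false

namespace Vale.Agent.P228Z

open Topology Filter Set Metric NormedSpace
open scoped ContDiff

namespace EData

open GMap

variable {G : Type*} [Group G] [TopologicalSpace G] [IsTopologicalGroup G] [T2Space G]
  {B : Type*} [NormedAddCommGroup B] [NormedSpace ℝ B] [CompleteSpace B] {Γ : GMap G B}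
  {E : Type*} [NormedAddCommGroup E] [NormedSpace ℝ E] [FiniteDimensional ℝ E] [CompleteSpace E]
  (D : EData Γ E)

theorem eq_of_ex {v w : E} (h : ∀ᶠ t in 𝓝 (0 : ℝ), D.ex (t • v) = D.ex (t • w)) : v = w := by
  have h1 := (D.isOP_ex v).2
  have h2 := (D.isOP_ex w).2
  have h3 : HasDerivAt (fun t : ℝ => Γ.io (D.ex (t • v))) (D.j w) 0 :=
    h2.congr_of_eventuallyEq (h.mono fun t ht => by simp only [ht])
  exact D.j.injective (h1.unique h3)

theorem exists_conj (g : G) (v : E) :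
    ∃ w : E, ∀ t : ℝ, D.ex (t • w) = g * D.ex (t • v) * g⁻¹ := by
  obtain ⟨w, hw⟩ := Γ.exists_velocity (Y := fun t : ℝ => g * D.ex (t • v) * g⁻¹)
    (fun s t => by rw [D.ex_add_smul]; simp [mul_assoc])
    ((continuous_const.mul (D.isOP_ex v).continuous).mul continuous_const)
  obtain ⟨u, rfl⟩ := D.surj _ _ hw
  exact ⟨u, fun t => D.ex_eq (v := u) hw t⟩

theorem trotter (v w : E) (h : ‖v + w‖ ≤ 1) :
    Tendsto (fun n : ℕ => (D.ex ((1 / (n : ℝ)) • v) * D.ex ((1 / (n : ℝ)) • w)) ^ n) atTop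
      (𝓝 (D.ex (v + w))) := by
  have hX := D.isOP_ex v
  have hY := D.isOP_ex w
  have hZ := D.isOP_ex (v + w)
  have h1 := ((hX.lim_mul hY 1).sub (hZ.lim 1)).norm.const_mul 2
  have e : (1 : ℝ) • D.j v + (1 : ℝ) • D.j w - (1 : ℝ) • D.j (v + w) = 0 := by simp
  rw [e, norm_zero, mul_zero] at h1
  refine Γ.tendsto_of (squeeze_zero' (Eventually.of_forall fun _ => norm_nonneg _) ?_ h1)
  filter_upwards [eventually_ge_atTop 1] with n hn
  have a3 := hZ.nat_mul_le 1 hn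
  have b3 := hom_div (X := fun t : ℝ => D.ex (t • (v + w))) hZ.1 1 hn
  simp only [abs_one, one_mul, one_smul, LinearIsometry.norm_map] at a3 b3
  have c2 := Γ.split (D.ex ((1 / (n : ℝ)) • v) * D.ex ((1 / (n : ℝ)) • w))
    (h := D.ex ((1 / (n : ℝ)) • (v + w))) n (a3.trans h)
  rw [b3] at c2
  rw [← smul_sub, norm_smul, Real.norm_natCast]
  linarith

/-- The adjoint action as a function. -/
noncomputable def Ad0 (g : G) (v : E) : E := Classical.choose (D.exists_conj g v)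

theorem ex_Ad0 (g : G) (v : E) (t : ℝ) :
    D.ex (t • D.Ad0 g v) = g * D.ex (t • v) * g⁻¹ := Classical.choose_spec (D.exists_conj g v) t

theorem Ad0_add (g : G) (v w : E) : D.Ad0 g (v + w) = D.Ad0 g v + D.Ad0 g w := by
  refine D.eq_of_ex ?_
  have h1 : ∀ u : E, ∀ᶠ t in 𝓝 (0 : ℝ), ‖t • u‖ ≤ 1 := by
    intro u
    have : Continuous fun t : ℝ => ‖t • u‖ := by fun_prop
    exact (this.tendsto 0).eventually (ge_mem_nhds (by simp))
  filter_upwards [h1 (v + w), h1 (D.Ad0 g v + D.Ad0 g w)] with t a1 a2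
  rw [D.ex_Ad0]
  rw [smul_add] at a1 a2 ⊢
  rw [smul_add]
  have b1 := ((D.trotter _ _ a1).const_mul g).mul_const g⁻¹
  have b2 := D.trotter _ _ a2
  refine tendsto_nhds_unique b1 (b2.congr fun n => ?_)
  simp only [smul_smul, D.ex_Ad0]
  rw [← conj_pow]
  congr 1
  simp [mul_assoc]

theorem Ad0_smul (g : G) (c : ℝ) (v : E) : D.Ad0 g (c • v) = c • D.Ad0 g v := by
  refine D.eq_of_ex (Eventually.of_forall fun t => ?_)
  rw [D.ex_Ad0, smul_smul, smul_smul, D.ex_Ad0]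

/-- The adjoint representation. -/
noncomputable def Ad (g : G) : E →L[ℝ] E :=
  LinearMap.toContinuousLinearMap
    { toFun := D.Ad0 g, map_add' := D.Ad0_add g, map_smul' := D.Ad0_smul g }

theorem ex_smul_Ad (g : G) (v : E) (t : ℝ) :
    D.ex (t • D.Ad g v) = g * D.ex (t • v) * g⁻¹ := D.ex_Ad0 g v t

theorem ex_Ad (g : G) (v : E) : D.ex (D.Ad g v) = g * D.ex v * g⁻¹ := by
  simpa using D.ex_smul_Ad g v 1

theorem Ad_one : D.Ad 1 = 1 := by
  ext1 v
  refine D.eq_of_ex (Eventually.of_forall fun t => ?_)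
  rw [D.ex_smul_Ad]
  simp

theorem Ad_mul (g h : G) : D.Ad (g * h) = D.Ad g * D.Ad h := by
  ext1 v
  refine D.eq_of_ex (Eventually.of_forall fun t => ?_)
  rw [mul_apply_eq_comp, D.ex_smul_Ad, D.ex_smul_Ad, D.ex_smul_Ad]
  simp [mul_assoc]

theorem Ad_est {g : G} (hg : ‖Γ.io g‖ ≤ 1) (v : E) :
    ‖D.Ad g v - v‖ ≤ ‖Γ.io g‖ * (‖v‖ + ‖D.Ad g v‖) := by
  have hX := D.isOP_ex v
  have hY := D.isOP_ex (D.Ad g v)
  have h1 := ((hY.lim 1).sub (hX.lim 1)).norm
  simp only [one_smul, ← map_sub, LinearIsometry.norm_map] at h1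
  refine le_of_tendsto h1 ?_
  obtain ⟨m, hm⟩ := exists_nat_ge ‖v‖
  filter_upwards [eventually_ge_atTop 1, eventually_ge_atTop m] with n hn hn'
  have a1 := hX.nat_mul_le 1 hn
  have a2 := hY.nat_mul_le 1 hn
  simp only [abs_one, one_mul, LinearIsometry.norm_map] at a1 a2
  rw [D.ex_smul_Ad] at a2 ⊢
  set x := D.ex ((1 / (n : ℝ)) • v)
  have hn0 : (0 : ℝ) < n := by exact_mod_cast hn
  have hn1 : (m : ℝ) ≤ n := by exact_mod_cast hn'
  have a3 : ‖Γ.io x‖ ≤ 1 := by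
    have : n * ‖Γ.io x‖ ≤ n * 1 := by linarith
    exact le_of_mul_le_mul_left this hn0
  have b1 := Γ.mul (g * x * g⁻¹) g hg
  have b2 := Γ.mul g x a3
  rw [inv_mul_cancel_right] at b1
  have e : Γ.io (g * x * g⁻¹) - Γ.io x =
      (Γ.io (g * x) - Γ.io g - Γ.io x) - (Γ.io (g * x) - Γ.io (g * x * g⁻¹) - Γ.io g) := by abel
  rw [← smul_sub, norm_smul, Real.norm_natCast, e]
  have b3 := norm_sub_le (Γ.io (g * x) - Γ.io g - Γ.io x)
    (Γ.io (g * x) - Γ.io (g * x * g⁻¹) - Γ.io g)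
  have b4 := norm_nonneg (Γ.io g)
  have b5 : ‖Γ.io g‖ * (n * ‖Γ.io x‖) ≤ ‖Γ.io g‖ * ‖v‖ := mul_le_mul_of_nonneg_left a1 b4
  have b6 : ‖Γ.io g‖ * (n * ‖Γ.io (g * x * g⁻¹)‖) ≤ ‖Γ.io g‖ * ‖D.Ad g v‖ :=
    mul_le_mul_of_nonneg_left a2 b4
  have b7 := mul_le_mul_of_nonneg_left (b3.trans (add_le_add b2 b1)) hn0.le
  nlinarith

theorem Ad_sub_one {g : G} (hg : ‖Γ.io g‖ ≤ 1 / 2) : ‖D.Ad g - 1‖ ≤ 4 * ‖Γ.io g‖ := by
  refine ContinuousLinearMap.opNorm_le_bound _ (by positivity) fun v => ?_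
  have h1 := D.Ad_est (g := g) (by linarith) v
  have h2 := norm_sub_norm_le (D.Ad g v) v
  have h3 := norm_nonneg (Γ.io g)
  have h4 := norm_nonneg v
  have h5 := norm_nonneg (D.Ad g v)
  have h6 : ‖D.Ad g v‖ ≤ 3 * ‖v‖ := by nlinarith
  show ‖D.Ad g v - v‖ ≤ _
  nlinarith

theorem Ad_dist {g h : G} (hd : ‖Γ.io g - Γ.io h‖ ≤ 1 / 2) :
    ‖D.Ad h - D.Ad g‖ ≤ ‖D.Ad g‖ * (4 * ‖Γ.io g - Γ.io h‖) := by
  rw [Γ.dist] at hd ⊢
  have e : D.Ad h - D.Ad g = D.Ad g * (D.Ad (g⁻¹ * h) - 1) := by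
    rw [mul_sub, ← D.Ad_mul, mul_inv_cancel_left, mul_one]
  rw [e]
  exact (norm_mul_le _ _).trans (mul_le_mul_of_nonneg_left (D.Ad_sub_one hd) (norm_nonneg _))

theorem Ad_norm {g : G} (hg : ‖Γ.io g‖ ≤ 1 / 2) : ‖D.Ad g‖ ≤ 3 := by
  have h1 := D.Ad_sub_one hg
  have h2 := norm_sub_norm_le (D.Ad g) 1
  have h3 : ‖(1 : E →L[ℝ] E)‖ ≤ 1 := ContinuousLinearMap.norm_id_le
  linarith

theorem Ad_continuous : Continuous D.Ad := by
  rw [continuous_iff_continuousAt]
  intro g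
  rw [ContinuousAt, tendsto_iff_norm_sub_tendsto_zero]
  have h1 : Tendsto (fun h => ‖Γ.io g - Γ.io h‖) (𝓝 g) (𝓝 0) := by
    have : Continuous fun h => ‖Γ.io g - Γ.io h‖ := (continuous_const.sub Γ.cont).norm
    simpa using this.tendsto g
  refine squeeze_zero' (g := fun h => ‖D.Ad g‖ * (4 * ‖Γ.io g - Γ.io h‖))
    (Eventually.of_forall fun _ => norm_nonneg _) ?_ ?_
  · filter_upwards [h1.eventually (ge_mem_nhds (show (0 : ℝ) < 1 / 2 by norm_num))] with h hh
    exact D.Ad_dist hh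
  · simpa using (h1.const_mul 4).const_mul ‖D.Ad g‖

theorem exists_ad (v : E) : ∃ a : E →L[ℝ] E,
    HasDerivAt (fun t : ℝ => D.Ad (D.ex (t • v))) a 0 ∧
      ∀ t : ℝ, D.Ad (D.ex (t • v)) = exp (t • a) :=
  onepar_exp _ (D.Ad_continuous.comp (D.isOP_ex v).continuous)
    (by simp [D.ex_zero, D.Ad_one]) (fun s t => by rw [D.ex_add_smul, D.Ad_mul])

/-- The infinitesimal adjoint action as a function. -/
noncomputable def ad0 (v : E) : E →L[ℝ] E := Classical.choose (D.exists_ad v)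

theorem ad0_deriv (v : E) : HasDerivAt (fun t : ℝ => D.Ad (D.ex (t • v))) (D.ad0 v) 0 :=
  (Classical.choose_spec (D.exists_ad v)).1

theorem ad0_smul (c : ℝ) (v : E) : D.ad0 (c • v) = c • D.ad0 v := by
  refine (D.ad0_deriv (c • v)).unique ?_
  have h2 : HasDerivAt (fun u : ℝ => u * c) c 0 := by
    simpa using (hasDerivAt_id (0 : ℝ)).mul_const c
  have h3 : HasDerivAt (fun t : ℝ => D.Ad (D.ex (t • v))) (D.ad0 v) (0 * c) := by
    simpa using D.ad0_deriv v
  simp only [smul_smul]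
  exact h3.scomp 0 h2

theorem ad0_add (v w : E) : D.ad0 (v + w) = D.ad0 v + D.ad0 w := by
  refine (D.ad0_deriv (v + w)).unique ?_
  have h1 := (D.ad0_deriv v).mul (D.ad0_deriv w)
  simp only [zero_smul, D.ex_zero, D.Ad_one, mul_one, one_mul] at h1
  have h2 : HasDerivAt (fun t : ℝ => D.Ad (D.ex (t • (v + w))) -
      D.Ad (D.ex (t • v)) * D.Ad (D.ex (t • w))) 0 0 := by
    refine hasDerivAt_of_sq (C := 24 * (‖v‖ * ‖w‖)) ?_
    have h3 : ∀ u : E, ∀ᶠ t in 𝓝 (0 : ℝ), ‖t • u‖ ≤ 1 / 4 := by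
      intro u
      have : Continuous fun t : ℝ => ‖t • u‖ := by fun_prop
      exact (this.tendsto 0).eventually (ge_mem_nhds (by simp))
    filter_upwards [h3 v, h3 w] with t a1 a2
    rw [smul_zero, sub_zero, ← D.Ad_mul, smul_add]
    have b1 := D.ex_mul_est (v := t • v) (w := t • w) (by linarith) (by linarith)
    have b2 : ‖t • v‖ * ‖t • w‖ ≤ 1 / 4 * (1 / 4) :=
      mul_le_mul a1 a2 (norm_nonneg _) (by norm_num)
    have b3 := D.Ad_dist (g := D.ex (t • v) * D.ex (t • w)) (h := D.ex (t • v + t • w))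
      (by linarith)
    have b4 := D.Ad_norm (g := D.ex (t • v) * D.ex (t • w)) (by
      linarith [Γ.gauge.mul (D.ex (t • v)) (D.ex (t • w)), D.norm_ex_le (t • v),
        D.norm_ex_le (t • w)])
    have b5 : ‖t • v‖ * ‖t • w‖ = ‖v‖ * ‖w‖ * t ^ 2 := by
      rw [norm_smul, norm_smul, Real.norm_eq_abs, ← sq_abs]; ring
    calc _ ≤ _ := b3
      _ ≤ 3 * (4 * (2 * (‖t • v‖ * ‖t • w‖))) :=
          mul_le_mul b4 (by linarith) (by positivity) (by norm_num)
      _ = _ := by rw [b5]; ring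
  have h4 := h2.add h1
  rw [zero_add] at h4
  refine h4.congr_of_eventuallyEq (Eventually.of_forall fun t => ?_)
  simp

/-- The infinitesimal adjoint representation. -/
noncomputable def ad : E →L[ℝ] E →L[ℝ] E :=
  LinearMap.toContinuousLinearMap
    { toFun := D.ad0, map_add' := D.ad0_add, map_smul' := D.ad0_smul }

theorem Ad_ex (v : E) : D.Ad (D.ex v) = exp (D.ad v) := by
  have := (Classical.choose_spec (D.exists_ad v)).2 1
  rw [one_smul, one_smul] at this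
  exact this

/-- The left logarithmic derivative of the exponential map. -/
noncomputable def ph (z : E) : E →L[ℝ] E := Phi (D.ad z)

theorem contDiff_ph : ContDiff ℝ ∞ D.ph := contDiff_Phi.comp D.ad.contDiff

theorem contDiff_Ad_ex : ContDiff ℝ ∞ fun v => D.Ad (D.ex v) := by
  simp only [D.Ad_ex]
  exact contDiff_exp'.comp D.ad.contDiff

theorem ph_eq (z : E) : D.ph z = ∫ s in (0 : ℝ)..1, D.Ad (D.ex ((-s) • z)) := by
  simp only [D.Ad_ex, map_smul]
  rfl

theorem ph_sub_one {z : E} (hz : ‖z‖ ≤ 1 / 8) : ‖1 - D.ph z‖ < 1 := by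
  have hc : Continuous fun s : ℝ => D.Ad (D.ex ((-s) • z)) :=
    D.contDiff_Ad_ex.continuous.comp (by fun_prop)
  have e : 1 - D.ph z = ∫ s in (0 : ℝ)..1, (1 - D.Ad (D.ex ((-s) • z))) := by
    rw [intervalIntegral.integral_sub (by simp) (hc.intervalIntegrable _ _), ph_eq]
    simp
  rw [e]
  have := intervalIntegral.norm_integral_le_of_norm_le_const (a := 0) (b := 1) (C := 1 / 2)
    (f := fun s : ℝ => 1 - D.Ad (D.ex ((-s) • z))) fun s hs => by
      rw [uIoc_of_le zero_le_one] at hs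
      have a1 : ‖(-s) • z‖ ≤ 1 / 8 := by
        rw [norm_smul, norm_neg, Real.norm_eq_abs, abs_of_pos hs.1]
        nlinarith [hs.1, hs.2, norm_nonneg z]
      have a2 := D.norm_ex_le ((-s) • z)
      have a3 := D.Ad_sub_one (g := D.ex ((-s) • z)) (by linarith)
      rw [norm_sub_rev]
      linarith
  simp only [sub_zero, abs_one, mul_one] at this
  linarith

theorem deriv_mul {X Y : ℝ → G} {v w : B} (h : Γ.IsOP X v) (h' : Γ.IsOP Y w) :
    HasDerivAt (fun t => Γ.io (X t * Y t)) (v + w) 0 := by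
  have h2 : HasDerivAt (fun t => Γ.io (X t * Y t) - Γ.io (X t) - Γ.io (Y t)) 0 0 := by
    refine hasDerivAt_of_sq (C := ‖v‖ * ‖w‖) ?_
    have h3 : ∀ᶠ t in 𝓝 (0 : ℝ), |t| * ‖w‖ ≤ 1 := by
      have : Continuous fun t : ℝ => |t| * ‖w‖ := by fun_prop
      exact (this.tendsto 0).eventually (ge_mem_nhds (by simp))
    filter_upwards [h3] with t ht
    rw [smul_zero, sub_zero]
    calc _ ≤ _ := Γ.mul _ _ ((h'.norm_le t).trans ht)
      _ ≤ (|t| * ‖v‖) * (|t| * ‖w‖) :=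
          mul_le_mul (h.norm_le t) (h'.norm_le t) (norm_nonneg _) (by positivity)
      _ = _ := by rw [← sq_abs]; ring
  have h4 := (h2.add h.2).add h'.2
  rw [zero_add] at h4
  refine h4.congr_of_eventuallyEq (Eventually.of_forall fun t => ?_)
  simp only [Pi.add_apply]
  abel

theorem ex_deriv_est {z w : E} (hz : ‖z‖ ≤ 1 / 2) (hw : ‖w‖ ≤ 1 / 2) :
    ‖Γ.io ((D.ex z)⁻¹ * D.ex (z + w)) - D.j (D.ph z w)‖ ≤ 6 * ‖w‖ ^ 2 := by
  let γ : ℝ → G := fun s => D.ex ((-s) • z) * D.ex (s • (z + w))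
  let A : ℝ → B := fun s => D.j (D.Ad (D.ex ((-s) • z)) w)
  have hc : Continuous fun s : ℝ => D.Ad (D.ex ((-s) • z)) :=
    D.contDiff_Ad_ex.continuous.comp (by fun_prop)
  have hA : Continuous A := D.j.continuous.comp (hc.clm_apply continuous_const)
  let I : ℝ → B := fun x => ∫ u in (0 : ℝ)..x, A u
  have hI : ∀ x, HasDerivAt I (A x) x := fun x => (hA.integral_hasStrictDerivAt 0 x).hasDerivAt
  have hI1 : I 1 = D.j (D.ph z w) := by
    rw [ph_eq, ContinuousLinearMap.intervalIntegral_apply (hc.intervalIntegrable _ _)]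
    exact D.j.toContinuousLinearMap.intervalIntegral_comp_comm
      ((hc.clm_apply continuous_const).intervalIntegrable _ _)
  have hγc : Continuous γ :=
    ((D.isOP_ex z).continuous.comp continuous_neg).mul (D.isOP_ex (z + w)).continuous
  let f : ℝ → ℝ := fun s => ‖Γ.io (γ s) - I s‖
  have hf : Continuous f :=
    ((Γ.cont.comp hγc).sub (continuous_iff_continuousAt.2 fun x => (hI x).continuousAt)).norm
  have key := image_le_of_liminf_slope_right_le_deriv_boundary (a := 0) (b := 1) hf.continuousOn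
    (B := fun s => 6 * ‖w‖ ^ 2 * s) (B' := fun _ => 6 * ‖w‖ ^ 2)
    (by simp [f, γ, I, D.ex_zero, Γ.one]) (by fun_prop)
    (fun x _ => by simpa using ((hasDerivAt_id x).const_mul (6 * ‖w‖ ^ 2)).hasDerivWithinAt)
    (fun x hx r hr => ?_) (right_mem_Icc.2 zero_le_one)
  · simp only [f, γ, hI1, mul_one, one_smul, neg_smul, D.ex_neg] at key
    exact key
  set k := D.ex ((-x) • z) with hk
  have hxz : ‖(-x) • z‖ ≤ 1 / 2 := by
    rw [norm_smul, norm_neg, Real.norm_eq_abs, abs_of_nonneg hx.1]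
    nlinarith [hx.1, hx.2, norm_nonneg z]
  have hγn : ‖Γ.io (γ x)‖ ≤ 2 * ‖w‖ := by
    simp only [γ]
    rw [neg_smul, D.ex_neg, ← Γ.dist, norm_sub_rev]
    refine (D.ex_dist_le _ (by rw [neg_smul, norm_neg] at hxz; linarith)).trans ?_
    rw [smul_add, add_sub_cancel_left, norm_smul, Real.norm_eq_abs, abs_of_nonneg hx.1]
    nlinarith [hx.1, hx.2, norm_nonneg w]
  have hAn : ‖A x‖ ≤ 3 * ‖w‖ := by
    have := D.Ad_norm (g := k) ((D.norm_ex_le _).trans hxz)
    simp only [A, LinearIsometry.norm_map]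
    exact ((D.Ad k).le_opNorm w).trans (mul_le_mul_of_nonneg_right this (norm_nonneg _))
  let a : ℝ → G := fun h => D.ex (h • (-D.Ad k z)) * D.ex (h • D.Ad k (z + w))
  have ha : HasDerivAt (fun h => Γ.io (a h)) (A x) 0 := by
    have := deriv_mul (D.isOP_ex (-D.Ad k z)) (D.isOP_ex (D.Ad k (z + w)))
    have e : D.j (-D.Ad k z) + D.j (D.Ad k (z + w)) = A x := by
      simp [A, hk]
    rwa [e] at this
  have hγ : ∀ h, γ (x + h) = a h * γ x := by
    intro h
    simp only [γ, a]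
    rw [← map_neg, D.ex_smul_Ad, D.ex_smul_Ad, neg_add, D.ex_add_smul, add_comm x h,
      D.ex_add_smul, ← hk, smul_neg, neg_smul]
    simp [mul_assoc]
  have ha0 : Γ.io (a 0) = 0 := by simp [a, D.ex_zero, Γ.one]
  have l1 := hasDerivAt_iff_tendsto_slope_zero.1 ha
  have l2 := hasDerivAt_iff_tendsto_slope_zero.1 (hI x)
  simp only [zero_add, ha0, sub_zero] at l1
  have l3 := (l1.norm.mul_const ‖Γ.io (γ x)‖).add (l1.sub l2).norm
  rw [sub_self, norm_zero, add_zero] at l3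
  have l4 : ‖A x‖ * ‖Γ.io (γ x)‖ < r := by
    have : ‖A x‖ * ‖Γ.io (γ x)‖ ≤ 3 * ‖w‖ * (2 * ‖w‖) :=
      mul_le_mul hAn hγn (norm_nonneg _) (by positivity)
    nlinarith
  have l5 : Tendsto (fun y : ℝ => y - x) (𝓝[>] x) (𝓝[≠] 0) := by
    refine tendsto_nhdsWithin_iff.2 ⟨?_, ?_⟩
    · have : Continuous fun y : ℝ => y - x := by fun_prop
      simpa using (this.tendsto x).mono_left nhdsWithin_le_nhds
    · filter_upwards [self_mem_nhdsWithin] with y hy
      exact sub_ne_zero.2 (ne_of_gt hy)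
  refine Eventually.frequently ?_
  filter_upwards [l5.eventually (l3.eventually (gt_mem_nhds l4)), self_mem_nhdsWithin]
    with y hy hyx
  have hh : 0 < y - x := sub_pos.2 hyx
  set h := y - x with hdef
  have ey : y = x + h := by rw [hdef]; ring
  rw [slope_def_field, ← hdef, div_lt_iff₀ hh]
  have b1 := Γ.mul (a h) (γ x) (by linarith)
  have b2 : f y - f x ≤ ‖Γ.io (a h)‖ * ‖Γ.io (γ x)‖ + ‖Γ.io (a h) - (I (x + h) - I x)‖ := by
    simp only [f]
    rw [ey, hγ]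
    refine (norm_sub_norm_le _ _).trans ?_
    have e : Γ.io (a h * γ x) - I (x + h) - (Γ.io (γ x) - I x) =
        (Γ.io (a h * γ x) - Γ.io (a h) - Γ.io (γ x)) + (Γ.io (a h) - (I (x + h) - I x)) := by abel
    rw [e]
    exact (norm_add_le _ _).trans (by linarith)
  rw [← smul_sub, norm_smul, norm_smul, norm_inv, Real.norm_eq_abs, abs_of_pos hh, mul_assoc,
    ← mul_add, inv_mul_lt_iff₀ hh] at hy
  linarith

end EData

end Vale.Agent.P228Z
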