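import Vale.Agent.P228Z.Gauge

/-!
# Gleason's convolution estimate
-/

namespace Vale.Agent.P228Z

open Topology Filter Set MeasureTheory BoundedContinuousFunction

variable {G : Type*} [Group G] [TopologicalSpace G] [IsTopologicalGroup G]

theorem abs_integral_le {X : Type*} [MeasurableSpace X] (μ : Measure X) {K : Set X}
    (hK : μ K < ⊤) {F : X → ℝ} {c : ℝ} (h0 : ∀ y ∉ K, F y = 0)
    (hc : ∀ y ∈ K, |F y| ≤ c) : |∫ y, F y ∂μ| ≤ c * μ.real K := by
  rw [← setIntegral_eq_integral_of_forall_compl_eq_zero h0, ← Real.norm_eq_abs]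
  exact norm_setIntegral_le_of_norm_le_const hK fun y hy => hc y hy

theorem conv_exists [T2Space G] [LocallyCompactSpace G] {U K : Set G} (h : Nbd U K) :
    ∃ C : ℝ, 1 ≤ C ∧ ∀ N N' : G → ℝ, Good U N → Good U N' → ∃ φ : G →ᵇ ℝ, 1 ≤ φ 1 ∧
      (∀ x ∉ K, φ x = 0) ∧ (∀ g, ‖io φ g‖ ≤ C) ∧ (∀ b ∈ U, ‖io φ b‖ ≤ C * N b) ∧
      ∀ (a : G), ∀ b ∈ U, ∀ α : ℝ, (∀ y ∈ K, N' (y⁻¹ * a * y) ≤ α) →
        ‖io φ (a * b) - io φ a - io φ b‖ ≤ C * α * N b := by
  borelize G
  let μ : Measure G := Measure.haar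
  have hKf : μ K < ⊤ := h.cpt.measure_lt_top
  have hUK : U ⊆ K := fun _ ha => h.sub ha
  have hUf : μ U < ⊤ := lt_of_le_of_lt (measure_mono hUK) hKf
  have hU0 : 0 < μ.real U := by
    rw [measureReal_def]
    exact ENNReal.toReal_pos (h.op.measure_pos μ ⟨1, h.one⟩).ne' hUf.ne
  have hUK' : μ.real U ≤ μ.real K := measureReal_mono hUK hKf.ne
  set c : ℝ := (μ.real U)⁻¹ with hc
  have hc0 : 0 < c := inv_pos.2 hU0
  have hcK : 1 ≤ c * μ.real K := by
    rw [hc, inv_mul_eq_div, one_le_div hU0]; exact hUK'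
  refine ⟨2 * (c * μ.real K), by linarith, fun N N' hN hN' => ?_⟩
  set ψ := bump N U with hψ
  set η := bump N' U with hη
  have hψc : Continuous ψ := hN.bump_cont h.one
  have hηc : Continuous η := hN'.bump_cont h.one
  have hψ0 : ∀ b ∈ U, ∀ y ∉ K, ψ (b⁻¹ * y) = 0 := by
    intro b hb y hy
    by_contra hne
    obtain ⟨u, hu, v, hv, he⟩ := hN.bump_supp h.one hne
    apply hy
    have : y = b * u * v := by rw [mul_assoc, ← he]; simp
    rw [this]
    exact h.three hb hu hv
  have hψ1 : ∀ y ∉ K, ψ y = 0 := fun y hy => by simpa using hψ0 1 h.one y hy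
  have hψa : ∀ y, |ψ y| ≤ 1 := fun y => by
    rw [abs_of_nonneg (bump_nonneg _ _ _)]; exact bump_le_one hN.gauge _ _
  have hηa : ∀ y, |η y| ≤ 1 := fun y => by
    rw [abs_of_nonneg (bump_nonneg _ _ _)]; exact bump_le_one hN'.gauge _ _
  have hint : ∀ b ∈ U, ∀ x, Integrable (fun y => ψ (b⁻¹ * y) * η (y⁻¹ * x)) μ := by
    intro b hb x
    refine Continuous.integrable_of_hasCompactSupport (by fun_prop) ?_
    refine HasCompactSupport.intro h.cpt fun y hy => ?_
    rw [hψ0 b hb y hy, zero_mul]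
  have hint1 : ∀ x, Integrable (fun y => ψ y * η (y⁻¹ * x)) μ := fun x => by
    simpa using hint 1 h.one x
  let f : G → ℝ := fun x => c * ∫ y, ψ y * η (y⁻¹ * x) ∂μ
  have hshift : ∀ b x, f (b⁻¹ * x) = c * ∫ y, ψ (b⁻¹ * y) * η (y⁻¹ * x) ∂μ := by
    intro b x
    have := integral_mul_left_eq_self (μ := μ) (fun y => ψ y * η (y⁻¹ * (b⁻¹ * x))) b⁻¹
    simp only [f]
    rw [← this]
    congr 2
    ext y
    congr 2
    simp [mul_assoc]
  have hD : ∀ b ∈ U, ∀ x, f x - f (b⁻¹ * x) =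
      c * ∫ y, (ψ y - ψ (b⁻¹ * y)) * η (y⁻¹ * x) ∂μ := by
    intro b hb x
    rw [hshift]
    simp only [f]
    rw [← mul_sub, ← integral_sub (hint1 x) (hint b hb x)]
    congr 2
    ext y
    ring
  have hfb : ∀ x, |f x| ≤ c * μ.real K := by
    intro x
    simp only [f]
    rw [abs_mul, abs_of_pos hc0]
    refine mul_le_mul_of_nonneg_left ?_ hc0.le
    have := abs_integral_le μ hKf (F := fun y => ψ y * η (y⁻¹ * x)) (c := 1)
      (fun y hy => by simp only [hψ1 y hy, zero_mul])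
      (fun y _ => by
        rw [abs_mul]
        exact mul_le_one₀ (hψa _) (abs_nonneg _) (hηa _))
    simpa using this
  have hDb : ∀ b ∈ U, ∀ x, |f x - f (b⁻¹ * x)| ≤ c * μ.real K * N b := by
    intro b hb x
    rw [hD b hb, abs_mul, abs_of_pos hc0, mul_assoc]
    refine mul_le_mul_of_nonneg_left ?_ hc0.le
    rw [mul_comm]
    refine abs_integral_le μ hKf (fun y hy => by simp only [hψ1 y hy, hψ0 b hb y hy]; simp)
      (fun y _ => ?_)
    rw [abs_mul]
    calc _ ≤ N b * 1 := mul_le_mul (bump_lip hN.gauge h.one b y) (hηa _) (abs_nonneg _)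
          (hN.gauge.nonneg _)
      _ = _ := mul_one _
  have hfc : Continuous f := by
    refine continuous_of_lip (N := fun g => c * μ.real K * N g) ?_ ?_
    · simpa using hN.lim.const_mul (c * μ.real K)
    · filter_upwards [h.op.mem_nhds h.one] with g hg using hDb g hg
  let φ : G →ᵇ ℝ := ofNormedAddCommGroup f hfc (c * μ.real K) hfb
  have hφ : ∀ x, φ x = f x := fun _ => rfl
  have hpos : 0 ≤ c * μ.real K := by linarith
  refine ⟨φ, ?_, ?_, ?_, ?_, ?_⟩
  · rw [hφ]
    simp only [f]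
    have h1 : ∫ y, U.indicator (1 : G → ℝ) y ∂μ ≤ ∫ y, ψ y * η (y⁻¹ * 1) ∂μ := by
      refine integral_mono ?_ (hint1 1) fun y => ?_
      · exact (integrableOn_const hUf.ne).integrable_indicator h.op.measurableSet
      · by_cases hy : y ∈ U
        · simp only [indicator_of_mem hy, Pi.one_apply, mul_one]
          rw [hψ, hη, bump_eq_one hN.gauge hy, bump_eq_one hN'.gauge (h.symU _ hy)]
          simp
        · simp only [indicator_of_notMem hy]
          exact mul_nonneg (bump_nonneg _ _ _) (bump_nonneg _ _ _)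
    rw [integral_indicator_one h.op.measurableSet] at h1
    calc (1 : ℝ) = c * μ.real U := by rw [hc, inv_mul_cancel₀ hU0.ne']
      _ ≤ _ := mul_le_mul_of_nonneg_left h1 hc0.le
  · intro x hx
    rw [hφ]
    simp only [f]
    have : (fun y => ψ y * η (y⁻¹ * x)) = fun _ => 0 := by
      ext y
      by_contra hne
      obtain ⟨u, hu, v, hv, he⟩ := hN.bump_supp h.one (left_ne_zero_of_mul hne)
      obtain ⟨u', hu', v', hv', he'⟩ := hN'.bump_supp h.one (right_ne_zero_of_mul hne)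
      apply hx
      have : x = u * v * u' * v' := by rw [mul_assoc, ← he, ← he']; simp
      rw [this]
      exact h.four _ hu _ hv _ hu' _ hv'
    rw [this]
    simp
  · intro g
    refine (norm_le (by linarith)).2 fun x => ?_
    rw [io_apply, hφ, hφ, Real.norm_eq_abs]
    have := abs_sub (f x) (f (g⁻¹ * x))
    linarith [hfb x, hfb (g⁻¹ * x)]
  · intro b hb
    have := hN.gauge.nonneg b
    refine (norm_le (by positivity)).2 fun x => ?_
    rw [io_apply, hφ, hφ, Real.norm_eq_abs]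
    have h2 := mul_nonneg hpos this
    linarith [hDb b hb x]
  · intro a b hb α hα
    have hb0 := hN.gauge.nonneg b
    have hα0 : 0 ≤ α := (hN'.gauge.nonneg _).trans (hα 1 (h.sub h.one))
    refine (norm_le (by positivity)).2 fun x => ?_
    have e1 : (io φ (a * b) - io φ a - io φ b) x =
        -((f x - f (b⁻¹ * x)) - (f (a⁻¹ * x) - f (b⁻¹ * (a⁻¹ * x)))) := by
      simp only [BoundedContinuousFunction.sub_apply, io_apply, hφ, mul_inv_rev, mul_assoc]
      ring
    have i1 : ∀ z, Integrable (fun y => (ψ y - ψ (b⁻¹ * y)) * η (y⁻¹ * z)) μ := fun z => by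
      simp only [sub_mul]
      exact (hint1 z).sub (hint b hb z)
    rw [e1, norm_neg, hD b hb, hD b hb, ← mul_sub, ← integral_sub (i1 _) (i1 _),
      Real.norm_eq_abs, abs_mul, abs_of_pos hc0]
    have h3 := abs_integral_le μ hKf (c := N b * α)
      (F := fun y => (ψ y - ψ (b⁻¹ * y)) * η (y⁻¹ * x) -
        (ψ y - ψ (b⁻¹ * y)) * η (y⁻¹ * (a⁻¹ * x)))
      (fun y hy => by simp only [hψ1 y hy, hψ0 b hb y hy]; simp)
      (fun y hy => by
        rw [← mul_sub, abs_mul]
        refine mul_le_mul (bump_lip hN.gauge h.one b y) ?_ (abs_nonneg _) hb0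
        have h4 := bump_lip hN'.gauge h.one (y⁻¹ * a * y) (y⁻¹ * x)
        have e2 : (y⁻¹ * a * y)⁻¹ * (y⁻¹ * x) = y⁻¹ * (a⁻¹ * x) := by simp [mul_assoc]
        rw [e2] at h4
        exact h4.trans (hα y hy))
    have h5 := mul_le_mul_of_nonneg_left h3 hc0.le
    have h6 : 0 ≤ c * μ.real K * α * N b := by positivity
    calc _ ≤ _ := h5
      _ = c * μ.real K * α * N b := by ring
      _ ≤ _ := by linarith

end Vale.Agent.P228Z
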