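import Vale.Agent.P228Z.OnePar

/-!
# The exponential map of a group with a Gleason map is a local homeomorphism
-/

set_option linter.unusedSectionVars false

namespace Vale.Agent.P228Z

open Topology Filter Set Metric

/-- A model `E` of the space of velocities. -/
structure EData {G : Type*} [Group G] [TopologicalSpace G] {B : Type*} [NormedAddCommGroup B]
    [NormedSpace ℝ B] (Γ : GMap G B) (E : Type*) [NormedAddCommGroup E] [NormedSpace ℝ E] where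
  j : E →ₗᵢ[ℝ] B
  surj : ∀ X v, Γ.IsOP X v → ∃ w, j w = v
  mem : ∀ w, ∃ X, Γ.IsOP X (j w)

namespace EData

open GMap

variable {G : Type*} [Group G] [TopologicalSpace G] [IsTopologicalGroup G] [T2Space G]
  {B : Type*} [NormedAddCommGroup B] [NormedSpace ℝ B] [CompleteSpace B] {Γ : GMap G B}
  {E : Type*} [NormedAddCommGroup E] [NormedSpace ℝ E] (D : EData Γ E)

/-- The exponential map. -/
noncomputable def ex (v : E) : G := Classical.choose (D.mem v) 1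

theorem ex_smul (v : E) (t : ℝ) : D.ex (t • v) = Classical.choose (D.mem v) t := by
  have h1 : Γ.IsOP (Classical.choose (D.mem v)) (D.j v) := Classical.choose_spec (D.mem v)
  have h2 : Γ.IsOP (Classical.choose (D.mem (t • v))) (D.j (t • v)) :=
    Classical.choose_spec (D.mem (t • v))
  have h4 := h1.smul t
  rw [← map_smul] at h4
  have h3 := h2.unique h4
  unfold ex
  rw [h3]
  simp

theorem isOP_ex (v : E) : Γ.IsOP (fun t => D.ex (t • v)) (D.j v) := by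
  simp only [ex_smul]
  exact Classical.choose_spec (D.mem v)

theorem ex_add_smul (v : E) (s t : ℝ) :
    D.ex ((s + t) • v) = D.ex (s • v) * D.ex (t • v) := (D.isOP_ex v).1 s t

theorem ex_zero : D.ex 0 = 1 := by
  simpa using hom_zero (X := fun t : ℝ => D.ex (t • (0 : E))) (D.isOP_ex 0).1

theorem ex_neg (v : E) : D.ex (-v) = (D.ex v)⁻¹ := by
  simpa using hom_neg (X := fun t : ℝ => D.ex (t • v)) (D.isOP_ex v).1 1

theorem ex_eq {X : ℝ → G} {v : E} (h : Γ.IsOP X (D.j v)) (t : ℝ) : D.ex (t • v) = X t :=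
  congrFun ((D.isOP_ex v).unique h) t

theorem norm_ex_le (v : E) : ‖Γ.io (D.ex v)‖ ≤ ‖v‖ := by
  simpa using (D.isOP_ex v).norm_le 1

theorem ex_sq {v : E} (hv : ‖v‖ ≤ 1) : ‖Γ.io (D.ex v) - D.j v‖ ≤ ‖v‖ ^ 2 := by
  simpa using (D.isOP_ex v).sq_est (t := 1) (by simpa using hv)

theorem ex_dist_le (v : E) {w : E} (hw : ‖w‖ ≤ 1) :
    ‖Γ.io (D.ex v) - Γ.io (D.ex w)‖ ≤ 2 * ‖v - w‖ := by
  simpa [← map_sub] using (D.isOP_ex v).dist_le (D.isOP_ex w) (t := 1) (by simpa using hw)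

theorem ex_mul_est {v w : E} (hv : ‖v‖ ≤ 1 / 2) (hw : ‖w‖ ≤ 1 / 2) :
    ‖Γ.io (D.ex v * D.ex w) - Γ.io (D.ex (v + w))‖ ≤ 2 * (‖v‖ * ‖w‖) := by
  have hX := D.isOP_ex v
  have hY := D.isOP_ex w
  have hZ := D.isOP_ex (v + w)
  have h1 := ((hX.lim_mul hY 1).sub (hZ.lim 1)).norm.const_mul 2
  have e : (1 : ℝ) • D.j v + (1 : ℝ) • D.j w - (1 : ℝ) • D.j (v + w) = 0 := by simp
  rw [e, norm_zero, mul_zero] at h1
  have h2 := h1.const_add (2 * (‖v‖ * ‖w‖))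
  rw [add_zero] at h2
  refine ge_of_tendsto h2 ?_
  filter_upwards [eventually_ge_atTop 1] with n hn
  have a1 := hX.nat_mul_le 1 hn
  have a2 := hY.nat_mul_le 1 hn
  have a3 := hZ.nat_mul_le 1 hn
  have b1 := hom_div (X := fun t : ℝ => D.ex (t • v)) hX.1 1 hn
  have b2 := hom_div (X := fun t : ℝ => D.ex (t • w)) hY.1 1 hn
  have b3 := hom_div (X := fun t : ℝ => D.ex (t • (v + w))) hZ.1 1 hn
  simp only [abs_one, one_mul, one_smul, LinearIsometry.norm_map] at a1 a2 a3 b1 b2 b3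
  set g := D.ex ((1 / (n : ℝ)) • v)
  set h := D.ex ((1 / (n : ℝ)) • w)
  set k := D.ex ((1 / (n : ℝ)) • (v + w))
  have a4 : ‖v + w‖ ≤ 1 := by linarith [norm_add_le v w]
  have c1 := Γ.comm_est (g := g) (h := h) n (by linarith) (by linarith)
  have c2 := Γ.split (g * h) (h := k) n (by linarith)
  rw [b1, b2] at c1
  rw [b3] at c2
  have c3 := norm_sub_le_norm_sub_add_norm_sub (Γ.io (D.ex v * D.ex w)) (Γ.io ((g * h) ^ n))
    (Γ.io (D.ex (v + w)))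
  have c4 : (n * ‖Γ.io g‖) * (n * ‖Γ.io h‖) ≤ ‖v‖ * ‖w‖ :=
    mul_le_mul a1 a2 (by positivity) (norm_nonneg _)
  rw [← smul_sub, norm_smul, Real.norm_natCast]
  nlinarith

theorem ex_lower {v w : E} (hv : ‖v‖ ≤ 1 / 8) (hw : ‖w‖ ≤ 1 / 8) :
    ‖v - w‖ ≤ 2 * ‖Γ.io (D.ex v) - Γ.io (D.ex w)‖ := by
  have h0 : ‖v - w‖ ≤ 1 / 4 := by linarith [norm_sub_le v w]
  have h1 := D.ex_mul_est (v := w) (w := v - w) (by linarith) (by linarith)
  rw [add_sub_cancel] at h1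
  have h2 := D.ex_sq (v := v - w) (by linarith)
  have h3 := Γ.left (D.ex w) (D.ex (v - w)) 1
  rw [mul_one, Γ.one, sub_zero] at h3
  have h4 := norm_sub_le_norm_sub_add_norm_sub (Γ.io (D.ex w * D.ex (v - w))) (Γ.io (D.ex v))
    (Γ.io (D.ex w))
  have h5 := norm_sub_norm_le (D.j (v - w)) (Γ.io (D.ex (v - w)))
  rw [norm_sub_rev] at h5
  have h6 : ‖D.j (v - w)‖ = ‖v - w‖ := D.j.norm_map _
  have h7 := norm_nonneg (v - w)
  nlinarith

theorem ex_continuousAt {w : E} (hw : ‖w‖ ≤ 1) : ContinuousAt D.ex w := by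
  refine Γ.tendsto_of (squeeze_zero (fun _ => norm_nonneg _) (fun v => D.ex_dist_le v hw) ?_)
  have : Continuous fun v : E => 2 * ‖v - w‖ := by fun_prop
  simpa using this.tendsto w

include D in
theorem finiteDimensional : FiniteDimensional ℝ E := by
  refine FiniteDimensional.of_totallyBounded_nhds_zero ℝ
    (closedBall_mem_nhds (0 : E) (by norm_num : (0 : ℝ) < 1 / 8)) ?_
  rw [totallyBounded_iff_ultrafilter]
  intro f hf
  have hf' : ∀ᶠ v in (f : Filter E), ‖v‖ ≤ 1 / 8 := by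
    filter_upwards [le_principal_iff.1 hf] with v hv using mem_closedBall_zero_iff.1 hv
  obtain ⟨x, -, hx⟩ := Γ.cpt.ultrafilter_le_nhds' (f.map D.ex) (by
    rw [Ultrafilter.mem_map]
    filter_upwards [hf'] with v hv
    show ‖Γ.io (D.ex v)‖ ≤ 1
    linarith [D.norm_ex_le v])
  have hx' : Tendsto (fun v => ‖Γ.io (D.ex v) - Γ.io x‖) f (𝓝 0) :=
    tendsto_iff_norm_sub_tendsto_zero.1 ((Γ.cont.tendsto x).comp hx)
  rw [Metric.cauchy_iff]
  refine ⟨inferInstance, fun ε hε => ⟨{v | ‖v‖ ≤ 1 / 8 ∧ ‖Γ.io (D.ex v) - Γ.io x‖ < ε / 4},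
    hf'.and (hx'.eventually (gt_mem_nhds (by positivity))), fun v hv w hw => ?_⟩⟩
  have h1 := D.ex_lower hv.1 hw.1
  have h2 := norm_sub_le_norm_sub_add_norm_sub (Γ.io (D.ex v)) (Γ.io x) (Γ.io (D.ex w))
  rw [norm_sub_rev (Γ.io x)] at h2
  rw [dist_eq_norm]
  linarith [hv.2, hw.2]

variable [FiniteDimensional ℝ E]

theorem ex_nhds {v0 : E} (h0 : ‖v0‖ ≤ 1 / 16) {ρ : ℝ} (hρ : 0 < ρ) (hρ1 : ρ ≤ 1 / 16) :
    D.ex '' closedBall v0 ρ ∈ 𝓝 (D.ex v0) := by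
  by_contra hc
  have hne : (𝓝 (D.ex v0) ⊓ 𝓟 (D.ex '' closedBall v0 ρ)ᶜ).NeBot := by
    rwa [← notMem_iff_inf_principal_compl]
  let 𝒰 := Ultrafilter.of (𝓝 (D.ex v0) ⊓ 𝓟 (D.ex '' closedBall v0 ρ)ᶜ)
  have hU := Ultrafilter.of_le (𝓝 (D.ex v0) ⊓ 𝓟 (D.ex '' closedBall v0 ρ)ᶜ)
  have hU1 : (𝒰 : Filter G) ≤ 𝓝 (D.ex v0) := hU.trans inf_le_left
  have hU2 : ∀ᶠ g in (𝒰 : Filter G), g ∉ D.ex '' closedBall v0 ρ :=
    le_principal_iff.1 (hU.trans inf_le_right)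
  have hball : ∀ v ∈ closedBall v0 ρ, ‖v‖ ≤ 1 / 8 := fun v hv => by
    rw [mem_closedBall, dist_eq_norm] at hv
    linarith [norm_sub_norm_le v v0]
  have hmin : ∀ g : G, ∃ v ∈ closedBall v0 ρ, ∀ w ∈ closedBall v0 ρ,
      ‖Γ.io (D.ex v) - Γ.io g‖ ≤ ‖Γ.io (D.ex w) - Γ.io g‖ := by
    intro g
    have hcont : ContinuousOn (fun v => ‖Γ.io (D.ex v) - Γ.io g‖) (closedBall v0 ρ) :=
      fun v hv => ((Γ.cont.continuousAt.comp (D.ex_continuousAt
        (by linarith [hball v hv]))).sub continuousAt_const).norm.continuousWithinAt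
    obtain ⟨v, hv, h⟩ := (isCompact_closedBall v0 ρ).exists_isMinOn
      ⟨v0, mem_closedBall_self hρ.le⟩ hcont
    exact ⟨v, hv, fun w hw => h hw⟩
  choose V hV1 hV2 using hmin
  let δ : G → ℝ := fun g => ‖Γ.io (D.ex (V g)) - Γ.io g‖
  have hd : Tendsto (fun g => ‖Γ.io (D.ex v0) - Γ.io g‖) 𝒰 (𝓝 0) := by
    have : Continuous fun g => ‖Γ.io (D.ex v0) - Γ.io g‖ := (continuous_const.sub Γ.cont).norm
    simpa using (this.tendsto (D.ex v0)).mono_left hU1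
  have hδ : ∀ g, δ g ≤ ‖Γ.io (D.ex v0) - Γ.io g‖ := fun g =>
    hV2 g v0 (mem_closedBall_self hρ.le)
  have hδ0 : Tendsto δ 𝒰 (𝓝 0) := squeeze_zero (fun _ => norm_nonneg _) hδ hd
  have hδp : ∀ᶠ g in (𝒰 : Filter G), 0 < δ g := by
    filter_upwards [hU2] with g hg
    refine norm_pos_iff.2 fun h => hg ⟨V g, hV1 g, Γ.inj (sub_eq_zero.1 h)⟩
  have hlam : Tendsto (fun g => (δ g)⁻¹) 𝒰 atTop :=
    tendsto_inv_nhdsGT_zero.comp (tendsto_nhdsWithin_iff.2 ⟨hδ0, hδp⟩)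
  have hh : ∀ g, ‖Γ.io ((D.ex (V g))⁻¹ * g)‖ = δ g := fun g => (Γ.dist _ _).symm
  have hK : ∀ᶠ g in (𝒰 : Filter G), (δ g)⁻¹ * ‖Γ.io ((D.ex (V g))⁻¹ * g)‖ ≤ 1 := by
    filter_upwards [hδp] with g hg
    rw [hh, inv_mul_cancel₀ hg.ne']
  obtain ⟨X, w, hX, -, hw⟩ := Γ.exists_op 𝒰 (fun g => (D.ex (V g))⁻¹ * g) (fun g => (δ g)⁻¹) 1
    hlam hK
  obtain ⟨W, rfl⟩ := D.surj X w hX
  have hW1 : ‖W‖ ≤ 1 := by
    rw [← D.j.norm_map]
    refine le_of_tendsto hw.norm ?_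
    filter_upwards [hK, hδp] with g h1 h2
    rwa [norm_smul, Real.norm_eq_abs, abs_of_pos (inv_pos.2 h2)]
  have hw' := tendsto_iff_norm_sub_tendsto_zero.1 hw
  have := ((hδp.and (hd.eventually (gt_mem_nhds (show 0 < ρ / 5 by positivity)))).and
    (hw'.eventually (gt_mem_nhds (show (0 : ℝ) < 1 / 4 by norm_num)))).exists
  obtain ⟨g, ⟨h1, h2⟩, h3⟩ := this
  have h4 := hδ g
  have hn : ‖δ g • W‖ ≤ δ g := by
    rw [norm_smul, Real.norm_eq_abs, abs_of_pos h1]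
    exact mul_le_of_le_one_right h1.le hW1
  have h5 : V g + δ g • W ∈ closedBall v0 ρ := by
    rw [mem_closedBall, dist_eq_norm]
    have a1 := D.ex_lower (hball _ (hV1 g)) (show ‖v0‖ ≤ 1 / 8 by linarith)
    have a2 := norm_sub_le_norm_sub_add_norm_sub (Γ.io (D.ex (V g))) (Γ.io g) (Γ.io (D.ex v0))
    rw [norm_sub_rev (Γ.io g)] at a2
    have a3 : V g + δ g • W - v0 = (V g - v0) + δ g • W := by abel
    rw [a3]
    have a4 := norm_add_le (V g - v0) (δ g • W)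
    have a5 : δ g = ‖Γ.io (D.ex (V g)) - Γ.io g‖ := rfl
    linarith
  have h6 : δ g ≤ ‖Γ.io (D.ex (V g + δ g • W)) - Γ.io g‖ := hV2 g _ h5
  have h7 := D.ex_mul_est (v := V g) (w := δ g • W) (by linarith [hball _ (hV1 g)])
    (by linarith)
  have h8 := Γ.left (D.ex (V g)) (D.ex (δ g • W)) ((D.ex (V g))⁻¹ * g)
  rw [mul_inv_cancel_left] at h8
  have h9 := D.ex_sq (v := δ g • W) (by linarith)
  have h10 : ‖D.j (δ g • W) - Γ.io ((D.ex (V g))⁻¹ * g)‖ ≤ δ g * (1 / 4) := by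
    have e : D.j (δ g • W) - Γ.io ((D.ex (V g))⁻¹ * g) =
        -(δ g • ((δ g)⁻¹ • Γ.io ((D.ex (V g))⁻¹ * g) - D.j W)) := by
      rw [smul_sub, smul_smul, mul_inv_cancel₀ h1.ne', one_smul, neg_sub, map_smul]
    rw [e, norm_neg, norm_smul, Real.norm_eq_abs, abs_of_pos h1]
    exact mul_le_mul_of_nonneg_left h3.le h1.le
  have h11 := norm_sub_le_norm_sub_add_norm_sub (Γ.io (D.ex (δ g • W))) (D.j (δ g • W))
    (Γ.io ((D.ex (V g))⁻¹ * g))
  have h12 := norm_sub_le_norm_sub_add_norm_sub (Γ.io (D.ex (V g + δ g • W)))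
    (Γ.io (D.ex (V g) * D.ex (δ g • W))) (Γ.io g)
  rw [norm_sub_rev (Γ.io (D.ex (V g + δ g • W))) (Γ.io (D.ex (V g) * D.ex (δ g • W)))] at h12
  have h13 : ‖V g‖ * ‖δ g • W‖ ≤ 1 / 8 * δ g :=
    mul_le_mul (hball _ (hV1 g)) hn (norm_nonneg _) (by norm_num)
  have h14 : ‖δ g • W‖ ^ 2 ≤ δ g * (1 / 16) := by
    have := norm_nonneg (δ g • W)
    nlinarith
  linarith

/-- The domain of the logarithm. -/
def dom : Set G := D.ex '' ball 0 (1 / 16)

theorem isOpen_dom : IsOpen D.dom := by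
  rw [isOpen_iff_mem_nhds]
  rintro _ ⟨v, hv, rfl⟩
  rw [mem_ball_zero_iff] at hv
  have h0 := norm_nonneg v
  refine mem_of_superset (D.ex_nhds hv.le (ρ := (1 / 16 - ‖v‖) / 2) (by linarith) (by linarith))
    (image_mono fun w hw => ?_)
  rw [mem_closedBall, dist_eq_norm] at hw
  rw [mem_ball_zero_iff]
  linarith [norm_sub_norm_le w v]

/-- The logarithm. -/
noncomputable def lg (g : G) : E := Function.invFunOn D.ex (ball 0 (1 / 16)) g

theorem lg_norm {g : G} (hg : g ∈ D.dom) : ‖D.lg g‖ < 1 / 16 :=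
  mem_ball_zero_iff.1 (Function.invFunOn_mem hg)

theorem ex_lg {g : G} (hg : g ∈ D.dom) : D.ex (D.lg g) = g := Function.invFunOn_eq hg

theorem ex_mem {v : E} (hv : ‖v‖ < 1 / 16) : D.ex v ∈ D.dom :=
  ⟨v, mem_ball_zero_iff.2 hv, rfl⟩

theorem lg_ex {v : E} (hv : ‖v‖ < 1 / 16) : D.lg (D.ex v) = v := by
  have h1 := D.ex_lower (v := D.lg (D.ex v)) (w := v)
    (by linarith [D.lg_norm (D.ex_mem hv)]) (by linarith)
  rw [D.ex_lg (D.ex_mem hv), sub_self, norm_zero, mul_zero, norm_le_zero_iff] at h1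
  exact sub_eq_zero.1 h1

theorem one_mem : (1 : G) ∈ D.dom := by
  rw [← D.ex_zero]; exact D.ex_mem (by simp)

theorem lg_one : D.lg 1 = 0 := by
  rw [← D.ex_zero]; exact D.lg_ex (by simp)

theorem lg_dist {g h : G} (hg : g ∈ D.dom) (hh : h ∈ D.dom) :
    ‖D.lg g - D.lg h‖ ≤ 2 * ‖Γ.io g - Γ.io h‖ := by
  have h1 := D.ex_lower (v := D.lg g) (w := D.lg h) (by linarith [D.lg_norm hg])
    (by linarith [D.lg_norm hh])
  rwa [D.ex_lg hg, D.ex_lg hh] at h1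

theorem lg_continuousAt {g : G} (hg : g ∈ D.dom) : ContinuousAt D.lg g := by
  rw [ContinuousAt, tendsto_iff_norm_sub_tendsto_zero]
  refine squeeze_zero' (g := fun h => 2 * ‖Γ.io h - Γ.io g‖)
    (Eventually.of_forall fun _ => norm_nonneg _) ?_ ?_
  · filter_upwards [D.isOpen_dom.mem_nhds hg] with h hh using D.lg_dist hh hg
  · have : Continuous fun h => 2 * ‖Γ.io h - Γ.io g‖ :=
      continuous_const.mul (Γ.cont.sub continuous_const).norm
    simpa using this.tendsto g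

theorem lg_est {g : G} (hg : g ∈ D.dom) : ‖Γ.io g - D.j (D.lg g)‖ ≤ 4 * ‖Γ.io g‖ ^ 2 := by
  have h1 := D.lg_dist hg D.one_mem
  rw [D.lg_one, Γ.one, sub_zero, sub_zero] at h1
  have h2 := D.ex_sq (v := D.lg g) (by linarith [D.lg_norm hg])
  rw [D.ex_lg hg] at h2
  have h3 := pow_le_pow_left₀ (norm_nonneg _) h1 2
  nlinarith

end EData

end Vale.Agent.P228Z
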