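import Vale.Agent.P228Z.Conv

/-!
# Groups without small subgroups have a Gleason map
-/

namespace Vale.Agent.P228Z

open Topology Filter Set MeasureTheory BoundedContinuousFunction

/-- A Gleason map: a left invariant embedding germ which is additive up to second order. -/
structure GMap (G : Type*) [Group G] [TopologicalSpace G] (B : Type*) [NormedAddCommGroup B] where
  io : G → B
  dist : ∀ g h, ‖io g - io h‖ = ‖io (g⁻¹ * h)‖
  mul : ∀ a b, ‖io b‖ ≤ 1 → ‖io (a * b) - io a - io b‖ ≤ ‖io a‖ * ‖io b‖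
  cont : Continuous io
  ind : ∀ V ∈ 𝓝 (1 : G), ∃ r > 0, ∀ g, ‖io g‖ < r → g ∈ V
  cpt : IsCompact {g | ‖io g‖ ≤ 1}

variable {G : Type*} [Group G] [TopologicalSpace G] [IsTopologicalGroup G]

theorem escape [T2Space G] {K : Set G} (hK : IsCompact K) (hs : ∀ u ∈ K, u⁻¹ ∈ K)
    (hn : ∀ H : Subgroup G, (H : Set G) ⊆ K → H = ⊥) {V : Set G} (hV : V ∈ 𝓝 (1 : G)) :
    ∃ m : ℕ, 1 ≤ m ∧ ∀ g : G, (∀ i ≤ m, g ^ i ∈ K) → g ∈ V := by
  by_contra hc
  push Not at hc
  let S : ℕ → Set G := fun m => {g | ∀ i ≤ m + 1, g ^ i ∈ K} ∩ (interior V)ᶜ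
  have hcl : ∀ m, IsClosed (S m) := by
    intro m
    refine IsClosed.inter ?_ isOpen_interior.isClosed_compl
    simp only [ofPred_forall]
    exact isClosed_iInter fun i => isClosed_iInter fun _ =>
      hK.isClosed.preimage (continuous_pow i)
  have hne : ∀ m, (S m).Nonempty := by
    intro m
    obtain ⟨g, hg, hgV⟩ := hc (m + 1) (by omega)
    exact ⟨g, hg, fun h => hgV (interior_subset h)⟩
  have hcp : IsCompact (S 0) := hK.of_isClosed_subset (hcl 0) fun g hg => by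
    simpa using hg.1 1 (by omega)
  obtain ⟨g, hg⟩ := IsCompact.nonempty_iInter_of_sequence_nonempty_isCompact_isClosed S
    (fun m g hg => ⟨fun i hi => hg.1 i (by omega), hg.2⟩) hne hcp hcl
  rw [mem_iInter] at hg
  have h1 : ∀ i : ℕ, g ^ i ∈ K := fun i => (hg i).1 i (by omega)
  have h2 : Subgroup.zpowers g = ⊥ := by
    refine hn _ ?_
    rintro _ ⟨k, rfl⟩
    rcases Int.eq_nat_or_neg k with ⟨n, rfl | rfl⟩
    · simpa using h1 n
    · simpa using hs _ (h1 n)
  rw [Subgroup.zpowers_eq_bot] at h2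
  exact (hg 0).2 (h2 ▸ mem_interior_iff_mem_nhds.2 hV)

theorem exists_nbd [T2Space G] [LocallyCompactSpace G] {W : Set G} (hW : W ∈ 𝓝 (1 : G)) :
    ∃ U K : Set G, Nbd U K ∧ K ⊆ W := by
  obtain ⟨K', hK', hKW, hKc⟩ := local_compact_nhds hW
  have hK : K' ∩ K'⁻¹ ∈ 𝓝 (1 : G) := inter_mem hK' (inv_mem_nhds_one G hK')
  obtain ⟨V, hV, hV4⟩ := exists_nhds_one_split4 hK
  obtain ⟨V', hV'V, hV'o, hV'1⟩ := mem_nhds_iff.1 hV
  refine ⟨V' ∩ V'⁻¹, K' ∩ K'⁻¹, ⟨hV'o.inter hV'o.inv, ⟨hV'1, by simpa using hV'1⟩, ?_,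
    hKc.inter_right hKc.inv.isClosed, ?_, ?_⟩, fun x hx => hKW hx.1⟩
  · rintro u ⟨h1, h2⟩
    exact ⟨h2, by simpa using h1⟩
  · rintro u ⟨h1, h2⟩
    exact ⟨h2, by simpa using h1⟩
  · intro a ha b hb c hc d hd
    exact hV4 (hV'V ha.1) (hV'V hb.1) (hV'V hc.1) (hV'V hd.1)

theorem conj_eventually {K V : Set G} (hK : IsCompact K) (hV : V ∈ 𝓝 (1 : G)) :
    ∀ᶠ a in 𝓝 (1 : G), ∀ y ∈ K, y⁻¹ * a * y ∈ V := by
  refine hK.eventually_forall_of_forall_eventually fun y _ => ?_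
  have hc : Continuous fun z : G × G => z.2⁻¹ * z.1 * z.2 := by fun_prop
  refine (hc.tendsto (1, y)).eventually ?_
  simpa using hV

theorem pow_eventually {V : Set G} (hV : V ∈ 𝓝 (1 : G)) (n : ℕ) :
    ∀ᶠ g in 𝓝 (1 : G), ∀ i < n, g ^ i ∈ V := by
  have : ∀ i ∈ Iio n, ∀ᶠ g in 𝓝 (1 : G), g ^ i ∈ V := fun i _ =>
    ((continuous_pow i).tendsto (1 : G)).eventually (by simpa using hV)
  exact ((finite_Iio n).eventually_all.2 this)

theorem good_scale {U K : Set G} (h : Nbd U K) {φ : G →ᵇ ℝ} (h1 : 1 ≤ φ 1)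
    (h0 : ∀ x ∉ K, φ x = 0) {V : Set G} {m : ℕ} (hm : ∀ g : G, (∀ i ≤ m, g ^ i ∈ K) → g ∈ V)
    {g : G} (hg : m * ‖io φ g‖ < 1) : g ∈ V := by
  refine hm g fun i hi => mem_of_io_lt h.symK h1 h0 ?_
  have h2 := (io_gauge φ).pow g i
  have h3 : (i : ℝ) * ‖io φ g‖ ≤ m * ‖io φ g‖ :=
    mul_le_mul_of_nonneg_right (by exact_mod_cast hi) (norm_nonneg _)
  exact lt_of_le_of_lt (h2.trans h3) hg

omit [TopologicalSpace G] [IsTopologicalGroup G] in
theorem norm_pow_sub {B : Type*} [NormedAddCommGroup B] [NormedSpace ℝ B] {f : G → B}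
    (h1 : f 1 = 0) {g : G} {e : ℝ} (n : ℕ)
    (h : ∀ i < n, ‖f (g ^ i * g) - f (g ^ i) - f g‖ ≤ e) :
    ‖f (g ^ n) - (n : ℝ) • f g‖ ≤ n * e := by
  induction n with
  | zero => simp [h1]
  | succ n ih =>
    have h2 := ih fun i hi => h i (by omega)
    have h3 := h n (by omega)
    have e1 : f (g ^ (n + 1)) - ((n + 1 : ℕ) : ℝ) • f g =
        (f (g ^ n * g) - f (g ^ n) - f g) + (f (g ^ n) - (n : ℝ) • f g) := by
      rw [pow_succ]; push_cast; rw [add_smul, one_smul]; abel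
    rw [e1]
    refine (norm_add_le _ _).trans ?_
    push_cast
    linarith

/-- One step of Gleason's bootstrap. -/
theorem improve [T2Space G] [LocallyCompactSpace G] {U K : Set G} (h : Nbd U K)
    (hn : ∀ H : Subgroup G, (H : Set G) ⊆ K → H = ⊥) :
    ∃ A : ℝ, 0 ≤ A ∧ ∃ V ∈ 𝓝 (1 : G), ∀ N, Good U N → ∃ N', Good U N' ∧
      ∀ n : ℕ, 1 ≤ n → ∀ g : G, (∀ i < n, g ^ i ∈ V) → N' g ≤ A / n + N g / 2 := by
  obtain ⟨C, hC1, hC⟩ := conv_exists h
  obtain ⟨ρ, hρ⟩ := exists_good h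
  obtain ⟨m, hm1, hm⟩ := escape h.cpt h.symK hn (h.op.mem_nhds h.one)
  have hm0 : (1 : ℝ) ≤ m := by exact_mod_cast hm1
  set α : ℝ := 1 / (2 * m * C) with hα
  have hα0 : 0 < α := by positivity
  have hV : {a : G | ρ a < α} ∈ 𝓝 (1 : G) := hρ.lim.eventually (gt_mem_nhds hα0)
  refine ⟨m * C, by positivity, U ∩ {a | ∀ y ∈ K, y⁻¹ * a * y ∈ {a : G | ρ a < α}},
    inter_mem (h.op.mem_nhds h.one) (conj_eventually h.cpt hV), fun N hN => ?_⟩
  obtain ⟨φ, p1, p2, p3, p4, p5⟩ := hC N ρ hN hρ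
  refine ⟨fun g => m * ‖io φ g‖, ⟨⟨by simp [io_one], fun g => by rw [(io_gauge φ).inv], ?_⟩,
    ?_, ?_⟩, ?_⟩
  · intro a b
    rw [← mul_add]
    exact mul_le_mul_of_nonneg_left ((io_gauge φ).mul a b) (by positivity)
  · refine squeeze_zero' (g := fun g => m * (C * N g))
      (Eventually.of_forall fun g => by positivity) ?_ ?_
    · filter_upwards [h.op.mem_nhds h.one] with g hg
      exact mul_le_mul_of_nonneg_left (p4 g hg) (by positivity)
    · simpa using (hN.lim.const_mul C).const_mul (m : ℝ)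
  · intro g hg
    by_contra hc
    exact hg (good_scale h p1 p2 hm (not_le.1 hc))
  · intro n hn1 g hg
    have hN0 := hN.gauge.nonneg g
    rcases hn1.eq_or_lt with rfl | hn2
    · have := mul_le_mul_of_nonneg_left (p3 g) (by positivity : (0 : ℝ) ≤ m)
      simp only [Nat.cast_one, div_one]
      linarith
    · have hgU : g ∈ U := by simpa using (hg 1 hn2).1
      have h2 := norm_pow_sub (f := io φ) (io_one φ) (g := g) (e := C * α * N g) n
        fun i hi => p5 _ g hgU α fun y hy => ((hg i hi).2 y hy).le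
      have h3 : ‖(n : ℝ) • io φ g‖ ≤ C + n * (C * α * N g) := by
        have := norm_sub_norm_le ((n : ℝ) • io φ g) (io φ (g ^ n))
        rw [norm_sub_rev] at this
        linarith [p3 (g ^ n)]
      have hn0 : (0 : ℝ) < n := by exact_mod_cast (by omega : 0 < n)
      rw [norm_smul, Real.norm_natCast] at h3
      have h4 : ‖io φ g‖ ≤ C / n + C * α * N g := by
        rw [div_add' _ _ _ hn0.ne', le_div_iff₀ hn0]
        linarith
      have h5 : m * (C * α * N g) = N g / 2 := by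
        rw [hα]; field_simp
      calc (m : ℝ) * ‖io φ g‖ ≤ m * (C / n + C * α * N g) :=
            mul_le_mul_of_nonneg_left h4 (by positivity)
        _ = m * C / n + N g / 2 := by rw [mul_add, h5]; ring

/-- The limit gauge, dominated by the escape norm. -/
theorem exists_limit_gauge [T2Space G] [LocallyCompactSpace G] {U K : Set G} (h : Nbd U K)
    (hn : ∀ H : Subgroup G, (H : Set G) ⊆ K → H = ⊥) :
    ∃ A : ℝ, 0 ≤ A ∧ ∃ V ∈ 𝓝 (1 : G), ∃ N, Good U N ∧
      ∀ n : ℕ, 1 ≤ n → ∀ g : G, (∀ i < n, g ^ i ∈ V) → N g ≤ A / n := by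
  obtain ⟨A, hA, V, hV, H⟩ := improve h hn
  obtain ⟨ρ, hρ⟩ := exists_good h
  choose F hF1 hF2 using H
  let s : ℕ → {N : G → ℝ // Good U N} :=
    fun k => Nat.rec ⟨ρ, hρ⟩ (fun _ N => ⟨F N.1 N.2, hF1 N.1 N.2⟩) k
  have hs : ∀ n : ℕ, 1 ≤ n → ∀ g : G, (∀ i < n, g ^ i ∈ V) → ∀ k,
      (s k).1 g ≤ 2 * A / n + ρ g * (1 / 2) ^ k := by
    intro n hn1 g hg k
    induction k with
    | zero =>
      have : 0 ≤ 2 * A / n := by positivity
      show ρ g ≤ _
      simp only [pow_zero, mul_one]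
      linarith
    | succ k ih =>
      have h2 := hF2 (s k).1 (s k).2 n hn1 g hg
      show F (s k).1 (s k).2 g ≤ _
      have e : 2 * A / n = 2 * (A / n) := by ring
      rw [pow_succ]
      rw [e] at ih ⊢
      linarith
  have hb : ∀ g k, (s k).1 g ∈ Icc 0 (2 * A + ρ g) := by
    intro g k
    refine ⟨(s k).2.gauge.nonneg g, ?_⟩
    have h2 := hs 1 le_rfl g (fun i hi => by
      obtain rfl : i = 0 := by omega
      simpa using mem_of_mem_nhds hV) k
    have h3 : ρ g * (1 / 2) ^ k ≤ ρ g :=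
      mul_le_of_le_one_right (hρ.gauge.nonneg g) (pow_le_one₀ (by norm_num) (by norm_num))
    simp only [Nat.cast_one, div_one] at h2
    linarith
  have hl : ∀ g, ∃ x, Tendsto (fun k => (s k).1 g) (hyperfilter ℕ) (𝓝 x) := by
    intro g
    obtain ⟨x, -, hx⟩ := isCompact_Icc.ultrafilter_le_nhds'
      ((hyperfilter ℕ).map fun k => (s k).1 g)
      (by rw [Ultrafilter.mem_map]; exact Eventually.of_forall fun k => hb g k)
    exact ⟨x, hx⟩
  choose N hN using hl
  have hbd : ∀ n : ℕ, 1 ≤ n → ∀ g : G, (∀ i < n, g ^ i ∈ V) → N g ≤ 2 * A / n := by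
    intro n hn1 g hg
    have h2 : Tendsto (fun k : ℕ => 2 * A / n + ρ g * (1 / 2 : ℝ) ^ k) (hyperfilter ℕ)
        (𝓝 (2 * A / n + ρ g * 0)) :=
      (((tendsto_pow_atTop_nhds_zero_of_lt_one (by norm_num) (by norm_num)).const_mul
        (ρ g)).const_add _).mono_left Nat.hyperfilter_le_atTop
    rw [mul_zero, add_zero] at h2
    exact le_of_tendsto_of_tendsto' (hN g) h2 (hs n hn1 g hg)
  have hG : Gauge N := by
    refine ⟨?_, fun g => ?_, fun a b => ?_⟩
    · refine tendsto_nhds_unique (hN 1) ?_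
      simp only [fun k => (s k).2.gauge.one]
      exact tendsto_const_nhds
    · refine tendsto_nhds_unique (hN g⁻¹) ?_
      simp only [fun k => (s k).2.gauge.inv g]
      exact hN g
    · exact le_of_tendsto_of_tendsto' (hN _) ((hN a).add (hN b))
        fun k => (s k).2.gauge.mul a b
  refine ⟨2 * A, by positivity, V, hV, N, ⟨hG, ?_, fun g hg => ?_⟩, hbd⟩
  · rw [Metric.tendsto_nhds]
    intro ε hε
    obtain ⟨n, hn'⟩ := exists_nat_gt (2 * A / ε)
    filter_upwards [pow_eventually hV (n + 1)] with g hg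
    rw [dist_zero_right, Real.norm_eq_abs, abs_of_nonneg (hG.nonneg g)]
    refine lt_of_le_of_lt (hbd (n + 1) (by omega) g hg) ?_
    rw [div_lt_iff₀ hε] at hn'
    rw [div_lt_iff₀ (by positivity)]
    push_cast
    nlinarith
  · exact ge_of_tendsto' (hN g) fun k => (s k).2.out g hg

theorem exists_gmap [T2Space G] [LocallyCompactSpace G]
    (hn : ∃ W ∈ 𝓝 (1 : G), ∀ H : Subgroup G, (H : Set G) ⊆ W → H = ⊥) :
    Nonempty (GMap G (G →ᵇ ℝ)) := by
  obtain ⟨W, hW, hn⟩ := hn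
  obtain ⟨U, K, h, hKW⟩ := exists_nbd hW
  have hn' : ∀ H : Subgroup G, (H : Set G) ⊆ K → H = ⊥ := fun H hH => hn H (hH.trans hKW)
  obtain ⟨A, hA, V, hV, N, hN, hb⟩ := exists_limit_gauge h hn'
  obtain ⟨C, hC1, hC⟩ := conv_exists h
  obtain ⟨φ, p1, p2, -, p4, p5⟩ := hC N N hN hN
  obtain ⟨m, hm1, hm⟩ := escape h.cpt h.symK hn' (conj_eventually h.cpt hV)
  obtain ⟨m', hm1', hm'⟩ := escape h.cpt h.symK hn' (h.op.mem_nhds h.one)
  have hm0 : (1 : ℝ) ≤ m := by exact_mod_cast hm1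
  have hm0' : (1 : ℝ) ≤ m' := by exact_mod_cast hm1'
  have key : ∀ a : G, ∀ y ∈ K, N (y⁻¹ * a * y) ≤ A * m * ‖io φ a‖ := by
    intro a y hy
    have h1 : ∀ n : ℕ, 1 ≤ n → ((n : ℝ) - 1) * (m * ‖io φ a‖) < 1 →
        N (y⁻¹ * a * y) ≤ A / n := by
      intro n hn1 hlt
      refine hb n hn1 _ fun i hi => ?_
      have e : (y⁻¹ * a * y) ^ i = y⁻¹ * a ^ i * y := by
        have := conj_pow (a := y⁻¹) (b := a) (i := i)
        simpa using this
      rw [e]
      refine good_scale h p1 p2 hm ?_ y hy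
      have h2 := (io_gauge φ).pow a i
      have h3 : (i : ℝ) ≤ n - 1 := by
        have : ((i + 1 : ℕ) : ℝ) ≤ n := by exact_mod_cast hi
        push_cast at this
        linarith
      calc (m : ℝ) * ‖io φ (a ^ i)‖ ≤ m * (i * ‖io φ a‖) :=
            mul_le_mul_of_nonneg_left h2 (by positivity)
        _ = i * (m * ‖io φ a‖) := by ring
        _ ≤ (n - 1) * (m * ‖io φ a‖) := mul_le_mul_of_nonneg_right h3 (by positivity)
        _ < 1 := hlt
    rcases (norm_nonneg (io φ a)).eq_or_lt with h0 | h0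
    · rw [← h0, mul_zero]
      have h2 : Tendsto (fun n : ℕ => A / n) atTop (𝓝 0) := tendsto_const_div_atTop_nhds_zero_nat A
      refine ge_of_tendsto h2 ?_
      filter_upwards [eventually_ge_atTop 1] with n hn1
      exact h1 n hn1 (by rw [← h0]; simp)
    · set t : ℝ := m * ‖io φ a‖ with ht
      have ht0 : 0 < t := by positivity
      have h2 : 1 ≤ ⌈1 / t⌉₊ := Nat.ceil_pos.2 (by positivity)
      have h3 := Nat.ceil_lt_add_one (by positivity : 0 ≤ 1 / t)
      have h4 := Nat.le_ceil (1 / t)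
      refine (h1 _ h2 ?_).trans ?_
      · rw [← lt_div_iff₀ ht0]; linarith
      · rw [mul_assoc, ← ht]
        calc A / ⌈1 / t⌉₊ ≤ A / (1 / t) := div_le_div_of_nonneg_left hA (by positivity) h4
          _ = A * t := by field_simp
  set L : ℝ := C * (A * m) ^ 2 + 2 * m' with hL
  have hL1 : 2 * m' ≤ L := by
    have : 0 ≤ C * (A * m) ^ 2 := by positivity
    linarith
  have hL2 : C * (A * m) ^ 2 ≤ L := by linarith
  have hL0 : 0 < L := by linarith
  have hnorm : ∀ v : G →ᵇ ℝ, ‖L • v‖ = L * ‖v‖ := fun v => by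
    rw [norm_smul, Real.norm_eq_abs, abs_of_pos hL0]
  have hsub : ∀ v w : G →ᵇ ℝ, L • v - L • w = L • (v - w) := fun v w => (smul_sub L v w).symm
  have hsmall : ∀ b, L * ‖io φ b‖ ≤ 1 → b ∈ U := by
    intro b hb1
    refine good_scale h p1 p2 hm' ?_
    have := norm_nonneg (io φ b)
    nlinarith
  have hcont : Continuous (io φ) := by
    rw [continuous_iff_continuousAt]
    intro y
    have h1 : Tendsto (fun x : G => y⁻¹ * x) (𝓝 y) (𝓝 1) := by
      have : Continuous fun x : G => y⁻¹ * x := by fun_prop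
      simpa using this.tendsto y
    rw [ContinuousAt, tendsto_iff_norm_sub_tendsto_zero]
    refine squeeze_zero' (g := fun x => C * N (y⁻¹ * x))
      (Eventually.of_forall fun _ => norm_nonneg _) ?_ ?_
    · filter_upwards [h1.eventually (h.op.mem_nhds h.one)] with x hx
      rw [norm_sub_rev, io_sub]
      exact p4 _ hx
    · simpa using (hN.lim.comp h1).const_mul C
  refine ⟨⟨fun g => L • io φ g, fun g g' => ?_, fun a b hb1 => ?_, hcont.const_smul L,
    fun V' hV' => ?_, ?_⟩⟩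
  · rw [hsub, hnorm, hnorm, io_sub]
  · rw [hnorm] at hb1
    rw [hsub, hsub, hnorm, hnorm, hnorm]
    have h1 := p5 a b (hsmall b hb1) _ (key a)
    have h2 := key b 1 (h.sub h.one)
    simp only [inv_one, one_mul, mul_one] at h2
    have h3 : C * (A * m * ‖io φ a‖) * N b ≤ C * (A * m * ‖io φ a‖) * (A * m * ‖io φ b‖) :=
      mul_le_mul_of_nonneg_left h2 (by positivity)
    have h4 : C * (A * m) ^ 2 * (‖io φ a‖ * ‖io φ b‖) ≤ L * (‖io φ a‖ * ‖io φ b‖) :=
      mul_le_mul_of_nonneg_right hL2 (by positivity)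
    calc L * ‖io φ (a * b) - io φ a - io φ b‖ ≤ L * (L * (‖io φ a‖ * ‖io φ b‖)) := by
          refine mul_le_mul_of_nonneg_left ?_ hL0.le
          calc _ ≤ _ := h1
            _ ≤ _ := h3
            _ = C * (A * m) ^ 2 * (‖io φ a‖ * ‖io φ b‖) := by ring
            _ ≤ _ := h4
      _ = _ := by ring
  · obtain ⟨k, hk1, hk⟩ := escape h.cpt h.symK hn' hV'
    have hk0 : (0 : ℝ) < k := by exact_mod_cast hk1
    refine ⟨L / k, by positivity, fun g hg => good_scale h p1 p2 hk ?_⟩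
    rw [hnorm, lt_div_iff₀ hk0] at hg
    have : L * (k * ‖io φ g‖) < L * 1 := by linarith
    exact lt_of_mul_lt_mul_left this hL0.le
  · refine h.cpt.of_isClosed_subset
      (isClosed_le (hcont.const_smul L).norm continuous_const) fun g hg => h.sub (hsmall g ?_)
    rw [← hnorm]
    exact hg

end Vale.Agent.P228Z
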