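import Mathlib

/-!
# Gauges on groups and Gleason's convolution
-/

namespace Vale.Agent.P228Z

open Topology Filter Set MeasureTheory BoundedContinuousFunction

section basic

variable {G : Type*} [Group G]

/-- A symmetric subadditive function on a group. -/
structure Gauge (N : G → ℝ) : Prop where
  one : N 1 = 0
  inv : ∀ g, N g⁻¹ = N g
  mul : ∀ g h, N (g * h) ≤ N g + N h

theorem Gauge.nonneg {N : G → ℝ} (h : Gauge N) (g : G) : 0 ≤ N g := by
  have h1 := h.mul g g⁻¹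
  rw [mul_inv_cancel, h.one, h.inv] at h1
  linarith

theorem Gauge.pow {N : G → ℝ} (h : Gauge N) (g : G) (n : ℕ) : N (g ^ n) ≤ n * N g := by
  induction n with
  | zero => simp [h.one]
  | succ n ih =>
    rw [pow_succ]
    have := h.mul (g ^ n) g
    push_cast
    linarith

/-- The bump function of a gauge around a set. -/
noncomputable def bump (N : G → ℝ) (U : Set G) (x : G) : ℝ :=
  1 - min 1 (⨅ u : U, N (x * (u : G)⁻¹))

theorem bdd {N : G → ℝ} (h : Gauge N) (U : Set G) (x : G) :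
    BddBelow (range fun u : U => N (x * (u : G)⁻¹)) :=
  ⟨0, by rintro _ ⟨u, rfl⟩; exact h.nonneg _⟩

theorem bump_nonneg (N : G → ℝ) (U : Set G) (x : G) : 0 ≤ bump N U x := by
  unfold bump
  have := min_le_left 1 (⨅ u : U, N (x * (u : G)⁻¹))
  linarith

theorem bump_le_one {N : G → ℝ} (h : Gauge N) (U : Set G) (x : G) : bump N U x ≤ 1 := by
  unfold bump
  have h0 : 0 ≤ ⨅ u : U, N (x * (u : G)⁻¹) := Real.iInf_nonneg fun u => h.nonneg _
  have := le_min zero_le_one h0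
  linarith

theorem bump_eq_one {N : G → ℝ} (h : Gauge N) {U : Set G} {x : G} (hx : x ∈ U) :
    bump N U x = 1 := by
  unfold bump
  have h0 : 0 ≤ ⨅ u : U, N (x * (u : G)⁻¹) := Real.iInf_nonneg fun u => h.nonneg _
  have h1 : ⨅ u : U, N (x * (u : G)⁻¹) ≤ N (x * x⁻¹) := ciInf_le (bdd h U x) (⟨x, hx⟩ : U)
  rw [mul_inv_cancel, h.one] at h1
  rw [le_antisymm h1 h0]
  simp

theorem bump_ne_zero {N : G → ℝ} {U : Set G} (h1 : (1 : G) ∈ U) {x : G}
    (hx : bump N U x ≠ 0) : ∃ u ∈ U, N (x * u⁻¹) < 1 := by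
  by_contra hc
  push Not at hc
  apply hx
  unfold bump
  have : Nonempty U := ⟨⟨1, h1⟩⟩
  have : 1 ≤ ⨅ u : U, N (x * (u : G)⁻¹) := le_ciInf fun u => hc u u.2
  rw [min_eq_left this]
  simp

theorem inf_le_add {N : G → ℝ} (h : Gauge N) {U : Set G} (h1 : (1 : G) ∈ U) (g x : G) :
    (⨅ u : U, N (g * x * (u : G)⁻¹)) ≤ (⨅ u : U, N (x * (u : G)⁻¹)) + N g := by
  have : Nonempty U := ⟨⟨1, h1⟩⟩
  rw [← sub_le_iff_le_add]
  refine le_ciInf fun u => ?_
  have h2 := ciInf_le (bdd h U (g * x)) u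
  have h3 := h.mul g (x * (u : G)⁻¹)
  rw [← mul_assoc] at h3
  linarith

theorem bump_lip {N : G → ℝ} (h : Gauge N) {U : Set G} (h1 : (1 : G) ∈ U) (g x : G) :
    |bump N U x - bump N U (g⁻¹ * x)| ≤ N g := by
  have h2 := inf_le_add h h1 g⁻¹ x
  have h3 := inf_le_add h h1 g (g⁻¹ * x)
  rw [h.inv] at h2
  rw [mul_inv_cancel_left] at h3
  unfold bump
  have h4 := h.nonneg g
  set a := ⨅ u : U, N (x * (u : G)⁻¹)
  set b := ⨅ u : U, N (g⁻¹ * x * (u : G)⁻¹)
  rw [abs_le]
  constructor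
  · rcases le_total 1 a with ha | ha <;> rcases le_total 1 b with hb | hb <;>
      simp only [min_eq_left, min_eq_right, ha, hb] <;> linarith
  · rcases le_total 1 a with ha | ha <;> rcases le_total 1 b with hb | hb <;>
      simp only [min_eq_left, min_eq_right, ha, hb] <;> linarith

end basic

section top

variable {G : Type*} [Group G] [TopologicalSpace G] [IsTopologicalGroup G]

theorem continuous_of_lip {f : G → ℝ} {N : G → ℝ} (hN : Tendsto N (𝓝 1) (𝓝 0))
    (h : ∀ᶠ g in 𝓝 (1 : G), ∀ x, |f x - f (g⁻¹ * x)| ≤ N g) : Continuous f := by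
  rw [continuous_iff_continuousAt]
  intro y
  have h1 : Tendsto (fun x : G => x * y⁻¹) (𝓝 y) (𝓝 1) := by
    have : Continuous fun x : G => x * y⁻¹ := by fun_prop
    simpa using this.tendsto y
  rw [ContinuousAt, tendsto_iff_norm_sub_tendsto_zero]
  refine squeeze_zero' (Eventually.of_forall fun _ => norm_nonneg _) ?_ (hN.comp h1)
  filter_upwards [h1.eventually h] with x hx
  have := hx x
  simpa using this

/-- Left translate of a bounded function. -/
noncomputable def tr (g : G) (f : G →ᵇ ℝ) : G →ᵇ ℝ :=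
  f.compContinuous ⟨fun x => g⁻¹ * x, by fun_prop⟩

@[simp] theorem tr_apply (g : G) (f : G →ᵇ ℝ) (x : G) : tr g f x = f (g⁻¹ * x) := rfl

theorem norm_tr_le (g : G) (f : G →ᵇ ℝ) : ‖tr g f‖ ≤ ‖f‖ :=
  (norm_le (norm_nonneg _)).2 fun _ => f.norm_coe_le_norm _

theorem norm_tr (g : G) (f : G →ᵇ ℝ) : ‖tr g f‖ = ‖f‖ := by
  refine le_antisymm (norm_tr_le g f) ?_
  have : tr g⁻¹ (tr g f) = f := by ext x; simp
  calc ‖f‖ = ‖tr g⁻¹ (tr g f)‖ := by rw [this]
    _ ≤ _ := norm_tr_le _ _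

/-- The cocycle `g ↦ f - g f`. -/
noncomputable def io (f : G →ᵇ ℝ) (g : G) : G →ᵇ ℝ := f - tr g f

@[simp] theorem io_apply (f : G →ᵇ ℝ) (g x : G) : io f g x = f x - f (g⁻¹ * x) := rfl

theorem io_one (f : G →ᵇ ℝ) : io f 1 = 0 := by ext x; simp

theorem io_sub (f : G →ᵇ ℝ) (g h : G) : ‖io f g - io f h‖ = ‖io f (g⁻¹ * h)‖ := by
  rw [← norm_tr g (io f (g⁻¹ * h)), ← norm_neg]
  congr 1
  ext x
  simp [mul_assoc]

theorem io_gauge (f : G →ᵇ ℝ) : Gauge fun g => ‖io f g‖ where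
  one := by simp [io_one]
  inv g := by
    have := io_sub f g 1
    rw [io_one, sub_zero, mul_one] at this
    exact this.symm
  mul g h := by
    have h1 := io_sub f g (g * h)
    rw [inv_mul_cancel_left] at h1
    have h2 := norm_sub_norm_le (io f (g * h)) (io f g)
    rw [norm_sub_rev] at h2
    linarith

theorem mem_of_io_lt {f : G →ᵇ ℝ} {K : Set G} (hs : ∀ x ∈ K, x⁻¹ ∈ K) (h1 : 1 ≤ f 1)
    (h0 : ∀ x ∉ K, f x = 0) {g : G} (hg : ‖io f g‖ < 1) : g ∈ K := by
  by_contra hc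
  have h2 : g⁻¹ ∉ K := fun h => hc (by simpa using hs _ h)
  have h3 := (io f g).norm_coe_le_norm 1
  rw [io_apply, mul_one, h0 _ h2, sub_zero, Real.norm_eq_abs] at h3
  have := le_abs_self (f 1)
  linarith

/-- A gauge which tends to zero at the identity and is at least one outside `U`. -/
structure Good (U : Set G) (N : G → ℝ) : Prop where
  gauge : Gauge N
  lim : Tendsto N (𝓝 1) (𝓝 0)
  out : ∀ g ∉ U, 1 ≤ N g

/-- The standing data: `U` open symmetric, `K` compact symmetric, `U ^ 4 ⊆ K`. -/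
structure Nbd (U K : Set G) : Prop where
  op : IsOpen U
  one : (1 : G) ∈ U
  symU : ∀ u ∈ U, u⁻¹ ∈ U
  cpt : IsCompact K
  symK : ∀ u ∈ K, u⁻¹ ∈ K
  four : ∀ a ∈ U, ∀ b ∈ U, ∀ c ∈ U, ∀ d ∈ U, a * b * c * d ∈ K

omit [IsTopologicalGroup G] in
theorem Nbd.three {U K : Set G} (h : Nbd U K) {a b c : G} (ha : a ∈ U) (hb : b ∈ U)
    (hc : c ∈ U) : a * b * c ∈ K := by
  simpa using h.four a ha b hb c hc 1 h.one

omit [IsTopologicalGroup G] in
theorem Nbd.two {U K : Set G} (h : Nbd U K) {a b : G} (ha : a ∈ U) (hb : b ∈ U) :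
    a * b ∈ K := by
  simpa using h.three ha hb h.one

omit [IsTopologicalGroup G] in
theorem Nbd.sub {U K : Set G} (h : Nbd U K) {a : G} (ha : a ∈ U) : a ∈ K := by
  simpa using h.two ha h.one

omit [IsTopologicalGroup G] in
theorem Good.bump_supp {U : Set G} {N : G → ℝ} (h : Good U N) (h1 : (1 : G) ∈ U) {x : G}
    (hx : bump N U x ≠ 0) : ∃ a ∈ U, ∃ b ∈ U, x = a * b := by
  obtain ⟨u, hu, h2⟩ := bump_ne_zero h1 hx
  refine ⟨x * u⁻¹, ?_, u, hu, by simp⟩
  by_contra hc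
  exact absurd (h.out _ hc) (not_le.2 h2)

theorem Good.bump_cont {U : Set G} {N : G → ℝ} (h : Good U N) (h1 : (1 : G) ∈ U) :
    Continuous (bump N U) :=
  continuous_of_lip h.lim (Eventually.of_forall fun g x => bump_lip h.gauge h1 g x)

theorem exists_good [T2Space G] [LocallyCompactSpace G] {U K : Set G} (h : Nbd U K) :
    ∃ N : G → ℝ, Good U N := by
  obtain ⟨f, hf1, hf0, -, hf⟩ := exists_continuous_one_zero_of_isCompact
    (isCompact_singleton (x := (1 : G))) h.op.isClosed_compl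
    (by simpa using h.one)
  let F : G →ᵇ ℝ := ofNormedAddCommGroup f f.continuous 1 fun x => by
    rw [Real.norm_eq_abs, abs_le]
    exact ⟨by linarith [(hf x).1], (hf x).2⟩
  have hF : ∀ x, F x = f x := fun _ => rfl
  refine ⟨fun g => ‖io F g‖, io_gauge F, ?_, ?_⟩
  · rw [Metric.tendsto_nhds]
    intro ε hε
    have h1 : ∀ᶠ g in 𝓝 (1 : G), ∀ x ∈ K, |f x - f (g⁻¹ * x)| < ε / 2 := by
      refine h.cpt.eventually_forall_of_forall_eventually fun y _ => ?_
      have hc : Continuous fun z : G × G => |f z.2 - f (z.1⁻¹ * z.2)| := by fun_prop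
      refine (hc.tendsto (1, y)).eventually (gt_mem_nhds ?_)
      simpa using hε
    filter_upwards [h1, h.op.mem_nhds h.one] with g hg hgU
    rw [dist_zero_right, norm_norm]
    refine lt_of_le_of_lt ((norm_le (by positivity : 0 ≤ ε / 2)).2 fun x => ?_) (by linarith)
    rw [io_apply, hF, hF, Real.norm_eq_abs]
    by_cases hx : x ∈ K
    · exact (hg x hx).le
    · have a1 : x ∉ U := fun hh => hx (h.sub hh)
      have a2 : g⁻¹ * x ∉ U := fun hh => hx (by simpa using h.two hgU hh)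
      rw [hf0 a1, hf0 a2]
      simp only [Pi.zero_apply, sub_zero, abs_zero]
      positivity
  · intro g hg
    by_contra hc
    refine hg (mem_of_io_lt (f := F) h.symU ?_ (fun x hx => hf0 hx) (not_le.1 hc))
    rw [hF, hf1 rfl]
    simp

end top

end Vale.Agent.P228Z
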