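import Vale.Agent.P228Z.Smooth

/-!
# Locally compact groups without small subgroups are Lie groups
-/

set_option linter.unusedSectionVars false

namespace Vale.Agent.P228Z

open Topology Filter Set Metric
open scoped ContDiff Manifold

namespace EData

open GMap

variable {G : Type*} [Group G] [TopologicalSpace G] [IsTopologicalGroup G] [T2Space G]
  {B : Type*} [NormedAddCommGroup B] [NormedSpace ℝ B] [CompleteSpace B] {Γ : GMap G B}
  {E : Type*} [NormedAddCommGroup E] [NormedSpace ℝ E] [FiniteDimensional ℝ E] [CompleteSpace E]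
  (D : EData Γ E) {F : Type*} [NormedAddCommGroup F] [NormedSpace ℝ F] (L : E ≃L[ℝ] F)

/-- The exponential chart at `g`. -/
noncomputable def chart (g : G) : OpenPartialHomeomorph G F where
  toFun x := L (D.lg (g⁻¹ * x))
  invFun y := g * D.ex (L.symm y)
  source := {x | g⁻¹ * x ∈ D.dom}
  target := {y | ‖L.symm y‖ < 1 / 16}
  map_source' x hx := by simpa using D.lg_norm hx
  map_target' y hy := by simpa using D.ex_mem hy
  left_inv' x hx := by simp [D.ex_lg hx]
  right_inv' y hy := by simp [D.lg_ex hy]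
  open_source := D.isOpen_dom.preimage (by fun_prop)
  open_target := isOpen_lt (by fun_prop) continuous_const
  continuousOn_toFun x hx := (L.continuous.continuousAt.comp
    (ContinuousAt.comp (g := D.lg) (D.lg_continuousAt hx) (by fun_prop))).continuousWithinAt
  continuousOn_invFun y hy := (continuousAt_const.mul (ContinuousAt.comp (g := D.ex)
    (D.ex_continuousAt (by
      have : ‖L.symm y‖ < 1 / 16 := hy
      linarith)) L.symm.continuous.continuousAt)).continuousWithinAt

theorem chart_apply (g x : G) : D.chart L g x = L (D.lg (g⁻¹ * x)) := rfl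

theorem chart_symm_apply (g : G) (y : F) : (D.chart L g).symm y = g * D.ex (L.symm y) := rfl

/-- The atlas of exponential charts. -/
@[reducible] noncomputable def charted : ChartedSpace F G where
  atlas := range (D.chart L)
  chartAt := D.chart L
  mem_chart_source x := by
    show x⁻¹ * x ∈ D.dom
    simpa using D.one_mem
  chart_mem_atlas x := mem_range_self x

theorem lieGroup : letI := D.charted L; LieGroup 𝓘(ℝ, F) ∞ G := by
  let _ := D.charted L
  have hch : ∀ g : G, chartAt F g = D.chart L g := fun _ => rfl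
  have hman : IsManifold 𝓘(ℝ, F) ∞ G := by
    refine isManifold_of_contDiffOn _ _ _ ?_
    rintro _ _ ⟨g, rfl⟩ ⟨g', rfl⟩ y hy
    simp only [mfld_simps] at hy ⊢
    have h1 : ‖L.symm y‖ < 1 / 16 := hy.1
    have h2 : g'⁻¹ * (g * D.ex (L.symm y)) ∈ D.dom := hy.2
    have h3 : ((0 : E), L.symm y) ∈ D.lawDom (g'⁻¹ * g) :=
      ⟨by simp, h1, by simpa [D.ex_zero, mul_assoc] using h2⟩
    have h4 : ContDiffAt ℝ ∞ (fun y : F => L (D.law (g'⁻¹ * g) (0, L.symm y))) y :=
      L.contDiff.contDiffAt.comp y (ContDiffAt.comp (g := D.law (g'⁻¹ * g)) y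
        (D.law_smooth _ h3) (contDiffAt_const.prodMk L.symm.contDiff.contDiffAt))
    refine ContDiffAt.contDiffWithinAt (h4.congr_of_eventuallyEq (Eventually.of_forall fun z => ?_))
    simp [chart_apply, chart_symm_apply, law, D.ex_zero, mul_assoc]
  refine { contMDiff_mul := fun p => ?_, contMDiff_inv := fun g => ?_ }
  · rw [contMDiffAt_iff]
    refine ⟨continuous_mul.continuousAt, ContDiffAt.contDiffWithinAt ?_⟩
    obtain ⟨g, h⟩ := p
    have h3 : ((0 : E), (0 : E)) ∈ D.lawDom 1 :=
      ⟨by simp, by simp, by simpa [D.ex_zero] using D.one_mem⟩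
    have h4 : ContDiffAt ℝ ∞
        (fun y : F × F => L (D.law 1 (D.Ad h⁻¹ (L.symm y.1), L.symm y.2))) (0, 0) := by
      refine L.contDiff.contDiffAt.comp _ (ContDiffAt.comp (g := D.law 1) _ ?_ ?_)
      · simpa using D.law_smooth _ h3
      · exact (((D.Ad h⁻¹).contDiff.comp (L.symm.contDiff.comp contDiff_fst)).prodMk
          (L.symm.contDiff.comp contDiff_snd)).contDiffAt
    have e : extChartAt (𝓘(ℝ, F).prod 𝓘(ℝ, F)) (g, h) (g, h) = (0, 0) := by
      simp [hch, chart_apply, D.lg_one]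
    rw [e]
    refine h4.congr_of_eventuallyEq (Eventually.of_forall fun z => ?_)
    show L (D.lg ((g * h)⁻¹ * (g * D.ex (L.symm z.1) * (h * D.ex (L.symm z.2))))) = _
    simp [law, D.ex_Ad, mul_assoc]
  · rw [contMDiffAt_iff]
    refine ⟨continuous_inv.continuousAt, ContDiffAt.contDiffWithinAt ?_⟩
    have e : extChartAt 𝓘(ℝ, F) g g = 0 := by simp [hch, chart_apply, D.lg_one]
    rw [e]
    have h4 : ContDiff ℝ ∞ fun y : F => L (-D.Ad g (L.symm y)) :=
      L.contDiff.comp ((D.Ad g).contDiff.comp L.symm.contDiff).neg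
    have h5 : ∀ᶠ y in 𝓝 (0 : F), ‖-D.Ad g (L.symm y)‖ < 1 / 16 := by
      have : Continuous fun y : F => ‖-D.Ad g (L.symm y)‖ := by fun_prop
      exact (this.tendsto 0).eventually (gt_mem_nhds (by simp))
    refine h4.contDiffAt.congr_of_eventuallyEq ?_
    filter_upwards [h5] with y hy
    rw [← D.lg_ex hy, D.ex_neg, D.ex_Ad]
    simp [hch, chart_apply, chart_symm_apply, mul_assoc]

end EData

/-- The theorem of Gleason, Montgomery-Zippin and Yamabe. -/
theorem lie_of_nss (G : Type*) [Group G] [TopologicalSpace G] [IsTopologicalGroup G] [T2Space G]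
    [LocallyCompactSpace G]
    (hn : ∃ W ∈ 𝓝 (1 : G), ∀ H : Subgroup G, (H : Set G) ⊆ W → H = ⊥) :
    ∃ (d : ℕ) (_ : ChartedSpace (EuclideanSpace ℝ (Fin d)) G), LieGroup (𝓡 d) ∞ G := by
  obtain ⟨Γ⟩ := exists_gmap hn
  let D : EData Γ Γ.lie := ⟨Γ.lie.subtypeₗᵢ, fun X v h => ⟨⟨v, X, h⟩, rfl⟩, fun w => w.2⟩
  have : FiniteDimensional ℝ Γ.lie := D.finiteDimensional
  have : CompleteSpace Γ.lie := FiniteDimensional.complete ℝ Γ.lie
  let L : Γ.lie ≃L[ℝ] EuclideanSpace ℝ (Fin (Module.finrank ℝ Γ.lie)) :=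
    ContinuousLinearEquiv.ofFinrankEq (by simp)
  exact ⟨_, D.charted L, D.lieGroup L⟩

end Vale.Agent.P228Z
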