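import Vale.Agent.P228Z.GMap

/-!
# One parameter subgroups of a group with a Gleason map
-/

set_option linter.unusedSectionVars false

namespace Vale.Agent.P228Z

open Topology Filter Set

theorem hasDerivAt_of_sq {B : Type*} [NormedAddCommGroup B] [NormedSpace ℝ B] {f : ℝ → B}
    {v : B} {C : ℝ} (h : ∀ᶠ s in 𝓝 (0 : ℝ), ‖f s - s • v‖ ≤ C * s ^ 2) : HasDerivAt f v 0 := by
  have h0 : f 0 = 0 := by simpa using h.self_of_nhds
  rw [hasDerivAt_iff_isLittleO]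
  simp only [h0, sub_zero]
  have h1 : (fun s : ℝ => f s - s • v) =O[𝓝 0] fun s : ℝ => s ^ 2 := by
    refine Asymptotics.IsBigO.of_bound C ?_
    filter_upwards [h] with s hs
    simpa using hs
  exact h1.trans_isLittleO (Asymptotics.isLittleO_pow_id (by norm_num))

theorem tendsto_nat_smul {B : Type*} [NormedAddCommGroup B] [NormedSpace ℝ B] {f : ℝ → B}
    {v : B} (h : HasDerivAt f v 0) (h0 : f 0 = 0) (t : ℝ) :
    Tendsto (fun n : ℕ => (n : ℝ) • f (t / n)) atTop (𝓝 (t • v)) := by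
  have h1 : HasDerivAt (fun u : ℝ => f (t * u)) (t • v) 0 := by
    have h2 : HasDerivAt (fun u : ℝ => t * u) t 0 := by
      simpa using (hasDerivAt_id (0 : ℝ)).const_mul t
    have h3 : HasDerivAt f v (t * 0) := by simpa using h
    exact h3.scomp 0 h2
  rw [hasDerivAt_iff_tendsto_slope_zero] at h1
  have h4 : Tendsto (fun n : ℕ => (n : ℝ)⁻¹) atTop (𝓝[≠] 0) := by
    refine tendsto_nhdsWithin_iff.2 ⟨tendsto_inv_atTop_nhds_zero_nat, ?_⟩
    filter_upwards [eventually_ge_atTop 1] with n hn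
    have : (0 : ℝ) < n := by exact_mod_cast hn
    simpa using this.ne'
  refine (h1.comp h4).congr fun n => ?_
  simp [h0, div_eq_mul_inv]

namespace GMap

variable {G : Type*} [Group G] [TopologicalSpace G] [IsTopologicalGroup G] [T2Space G]
  {B : Type*} [NormedAddCommGroup B] [NormedSpace ℝ B] [CompleteSpace B] (Γ : GMap G B)

theorem one : Γ.io 1 = 0 := by
  have := Γ.dist 1 1
  rw [sub_self, norm_zero, inv_one, mul_one] at this
  exact norm_eq_zero.1 this.symm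

theorem gauge : Gauge fun g => ‖Γ.io g‖ where
  one := by simp [Γ.one]
  inv g := by
    have := Γ.dist g 1
    rw [Γ.one, sub_zero, mul_one] at this
    exact this.symm
  mul g h := by
    have h1 := Γ.dist g (g * h)
    rw [inv_mul_cancel_left] at h1
    have h2 := norm_sub_norm_le (Γ.io (g * h)) (Γ.io g)
    rw [norm_sub_rev] at h2
    linarith

theorem left (g x y : G) : ‖Γ.io (g * x) - Γ.io (g * y)‖ = ‖Γ.io x - Γ.io y‖ := by
  rw [Γ.dist, Γ.dist]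
  congr 2
  simp [mul_assoc]

theorem right {k : G} (hk : ‖Γ.io k‖ ≤ 1) (x y : G) :
    ‖Γ.io (x * k) - Γ.io (y * k)‖ ≤ 2 * ‖Γ.io x - Γ.io y‖ := by
  have e : ‖Γ.io (x * k) - Γ.io (y * k)‖ = ‖Γ.io k - Γ.io (x⁻¹ * y * k)‖ := by
    rw [← Γ.left x k]
    congr 3
    simp [mul_assoc]
  rw [e, Γ.dist x y]
  have h1 := Γ.mul (x⁻¹ * y) k hk
  have e2 : Γ.io k - Γ.io (x⁻¹ * y * k) =
      -(Γ.io (x⁻¹ * y * k) - Γ.io (x⁻¹ * y) - Γ.io k) - Γ.io (x⁻¹ * y) := by abel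
  rw [e2]
  refine (norm_sub_le _ _).trans ?_
  rw [norm_neg]
  have := norm_nonneg (Γ.io (x⁻¹ * y))
  nlinarith

theorem inv_est {g : G} (hg : ‖Γ.io g‖ ≤ 1) : ‖Γ.io g⁻¹ + Γ.io g‖ ≤ ‖Γ.io g‖ ^ 2 := by
  have h1 := Γ.mul g⁻¹ g hg
  rw [inv_mul_cancel, Γ.one, Γ.gauge.inv] at h1
  have e : 0 - Γ.io g⁻¹ - Γ.io g = -(Γ.io g⁻¹ + Γ.io g) := by abel
  rwa [e, norm_neg, ← sq] at h1

theorem pow_est {g : G} (hg : ‖Γ.io g‖ ≤ 1) (n : ℕ) :
    ‖Γ.io (g ^ n) - (n : ℝ) • Γ.io g‖ ≤ (n * ‖Γ.io g‖) ^ 2 := by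
  have := norm_pow_sub (f := Γ.io) Γ.one (g := g) (e := n * ‖Γ.io g‖ * ‖Γ.io g‖) n fun i hi => by
    refine (Γ.mul _ _ hg).trans (mul_le_mul_of_nonneg_right ?_ (norm_nonneg _))
    refine (Γ.gauge.pow g i).trans (mul_le_mul_of_nonneg_right ?_ (norm_nonneg _))
    exact_mod_cast hi.le
  calc _ ≤ _ := this
    _ = _ := by ring

theorem zpow_norm (g : G) (k : ℤ) : ‖Γ.io (g ^ k)‖ ≤ |(k : ℝ)| * ‖Γ.io g‖ := by
  rcases Int.eq_nat_or_neg k with ⟨n, rfl | rfl⟩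
  · simpa using Γ.gauge.pow g n
  · have := Γ.gauge.pow g n
    rw [← Γ.gauge.inv] at this
    simpa using this

theorem zpow_est {g : G} (hg : ‖Γ.io g‖ ≤ 1) (k : ℤ) :
    ‖Γ.io (g ^ k) - (k : ℝ) • Γ.io g‖ ≤ 2 * (|(k : ℝ)| * ‖Γ.io g‖) ^ 2 := by
  rcases Int.eq_nat_or_neg k with ⟨n, rfl | rfl⟩
  · have := Γ.pow_est hg n
    simp only [zpow_natCast, Int.cast_natCast, Nat.abs_cast]
    nlinarith [sq_nonneg (n * ‖Γ.io g‖)]
  · have h1 := Γ.pow_est (g := g⁻¹) (by rwa [Γ.gauge.inv]) n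
    have h2 := Γ.inv_est hg
    rw [Γ.gauge.inv] at h1
    have e : Γ.io (g ^ (-(n : ℤ))) - ((-(n : ℤ) : ℤ) : ℝ) • Γ.io g =
        (Γ.io (g⁻¹ ^ n) - (n : ℝ) • Γ.io g⁻¹) + (n : ℝ) • (Γ.io g⁻¹ + Γ.io g) := by
      simp only [zpow_neg, zpow_natCast, inv_pow, Int.cast_neg, Int.cast_natCast, neg_smul,
        smul_add]
      abel
    rw [e]
    refine (norm_add_le _ _).trans ?_
    rw [norm_smul, Real.norm_natCast]
    simp only [Int.cast_neg, Int.cast_natCast, abs_neg, Nat.abs_cast]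
    have h3 : (n : ℝ) ≤ n ^ 2 := by exact_mod_cast Nat.le_self_pow (by norm_num) n
    have h4 : (n : ℝ) * ‖Γ.io g⁻¹ + Γ.io g‖ ≤ n ^ 2 * ‖Γ.io g‖ ^ 2 :=
      mul_le_mul h3 h2 (norm_nonneg _) (by positivity)
    nlinarith

theorem tendsto_one {I : Type*} {l : Filter I} {h : I → G}
    (H : Tendsto (fun i => ‖Γ.io (h i)‖) l (𝓝 0)) : Tendsto h l (𝓝 1) := by
  intro V hV
  obtain ⟨r, hr, hV'⟩ := Γ.ind V hV
  rw [Filter.mem_map]
  filter_upwards [H.eventually (gt_mem_nhds hr)] with i hi using hV' _ hi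

theorem tendsto_of {I : Type*} {l : Filter I} {h : I → G} {x : G}
    (H : Tendsto (fun i => ‖Γ.io (h i) - Γ.io x‖) l (𝓝 0)) : Tendsto h l (𝓝 x) := by
  have h1 : Tendsto (fun i => x⁻¹ * h i) l (𝓝 1) := by
    refine Γ.tendsto_one (H.congr fun i => ?_)
    rw [norm_sub_rev, Γ.dist]
  simpa using h1.const_mul x

theorem inj {x y : G} (h : Γ.io x = Γ.io y) : x = y := by
  have : Tendsto (fun _ : ℕ => x) atTop (𝓝 y) := Γ.tendsto_of (by simp [h])
  exact tendsto_nhds_unique tendsto_const_nhds this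

theorem split (g : G) {h : G} (n : ℕ) (hn : n * ‖Γ.io h‖ ≤ 1) :
    ‖Γ.io (g ^ n) - Γ.io (h ^ n)‖ ≤ 2 * n * ‖Γ.io g - Γ.io h‖ := by
  induction n with
  | zero => simp
  | succ n ih =>
    have h0 := norm_nonneg (Γ.io h)
    push_cast at hn ⊢
    have h1 : n * ‖Γ.io h‖ ≤ 1 := by linarith
    have h2 := ih h1
    have h3 := Γ.right ((Γ.gauge.pow h n).trans h1) g h
    have h4 := Γ.left g (g ^ n) (h ^ n)
    have h5 := norm_sub_le_norm_sub_add_norm_sub (Γ.io (g * g ^ n)) (Γ.io (g * h ^ n))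
      (Γ.io (h * h ^ n))
    rw [pow_succ', pow_succ']
    linarith

theorem comm_est {g h : G} (n : ℕ) (hg : n * ‖Γ.io g‖ ≤ 1) (hh : n * ‖Γ.io h‖ ≤ 1) :
    ‖Γ.io (g ^ n * h ^ n) - Γ.io ((g * h) ^ n)‖ ≤ 2 * n ^ 2 * (‖Γ.io g‖ * ‖Γ.io h‖) := by
  induction n with
  | zero => simp
  | succ n ih =>
    have g0 := norm_nonneg (Γ.io g)
    have h0 := norm_nonneg (Γ.io h)
    have n0 : (0 : ℝ) ≤ n := n.cast_nonneg
    push_cast at hg hh ⊢
    have h1 : n * ‖Γ.io h‖ ≤ 1 := by linarith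
    have g1 : n * ‖Γ.io g‖ ≤ 1 := by linarith
    have h1' : ‖Γ.io h‖ ≤ 1 := by nlinarith
    have h2 := ih g1 h1
    have e1 : g ^ (n + 1) * h ^ (n + 1) = g * (g ^ n * h * h ^ n) := by
      rw [pow_succ', pow_succ']; simp [mul_assoc]
    have e2 : (g * h) ^ (n + 1) = g * (h * (g * h) ^ n) := by
      rw [pow_succ']; simp [mul_assoc]
    rw [e1, e2, Γ.left]
    have h3 := Γ.right ((Γ.gauge.pow h n).trans h1) (g ^ n * h) (h * g ^ n)
    have h4 := Γ.left h (g ^ n * h ^ n) ((g * h) ^ n)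
    have h5 := norm_sub_le_norm_sub_add_norm_sub (Γ.io (g ^ n * h * h ^ n))
      (Γ.io (h * g ^ n * h ^ n)) (Γ.io (h * (g * h) ^ n))
    have h6 := Γ.mul (g ^ n) h h1'
    have h7 := Γ.mul h (g ^ n) ((Γ.gauge.pow g n).trans g1)
    have h8 : ‖Γ.io (g ^ n)‖ * ‖Γ.io h‖ ≤ n * ‖Γ.io g‖ * ‖Γ.io h‖ :=
      mul_le_mul_of_nonneg_right (Γ.gauge.pow g n) h0
    have h9 : ‖Γ.io (g ^ n * h) - Γ.io (h * g ^ n)‖ ≤ 2 * (n * ‖Γ.io g‖ * ‖Γ.io h‖) := by
      have e3 : Γ.io (g ^ n * h) - Γ.io (h * g ^ n) =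
          (Γ.io (g ^ n * h) - Γ.io (g ^ n) - Γ.io h) -
            (Γ.io (h * g ^ n) - Γ.io h - Γ.io (g ^ n)) := by abel
      rw [e3]
      refine (norm_sub_le _ _).trans ?_
      linarith
    rw [← mul_assoc] at h4
    have := mul_nonneg g0 h0
    nlinarith

theorem limit {I : Type*} (𝒰 : Ultrafilter I) (h : I → G) (lam : I → ℝ) (K : ℝ)
    (hl : Tendsto lam 𝒰 atTop) (hK : ∀ᶠ i in 𝒰, lam i * ‖Γ.io (h i)‖ ≤ K) :
    ∃ (X : ℝ → G) (v : B), (∀ s t, X (s + t) = X s * X t) ∧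
      (∀ s, Tendsto (fun i => h i ^ ⌊s * lam i⌋) 𝒰 (𝓝 (X s))) ∧
      Tendsto (fun i => lam i • Γ.io (h i)) 𝒰 (𝓝 v) ∧
      ∀ s, ‖Γ.io (X s) - s • v‖ ≤ 2 * K ^ 2 * s ^ 2 := by
  have hpos : ∀ᶠ i in 𝒰, 0 < lam i := hl.eventually (eventually_gt_atTop 0)
  have hs : Tendsto (fun i => ‖Γ.io (h i)‖) 𝒰 (𝓝 0) := by
    refine squeeze_zero' (g := fun i => K / lam i) (Eventually.of_forall fun _ => norm_nonneg _)
      ?_ (tendsto_const_nhds.div_atTop hl)
    filter_upwards [hpos, hK] with i h1 h2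
    rw [le_div_iff₀ h1]; linarith
  have hfl : ∀ x : ℝ, |(⌊x⌋ : ℝ) - x| ≤ 1 := fun x => by
    rw [abs_le]; constructor <;> linarith [Int.floor_le x, Int.lt_floor_add_one x]
  have hk : ∀ s : ℝ, ∀ᶠ i in 𝒰,
      |(⌊s * lam i⌋ : ℝ)| * ‖Γ.io (h i)‖ ≤ |s| * K + ‖Γ.io (h i)‖ := by
    intro s
    filter_upwards [hpos, hK] with i h1 h2
    have h3 : |(⌊s * lam i⌋ : ℝ)| ≤ |s| * lam i + 1 := by
      have := abs_sub_abs_le_abs_sub (⌊s * lam i⌋ : ℝ) (s * lam i)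
      rw [abs_mul, abs_of_pos h1] at this
      linarith [hfl (s * lam i)]
    have h4 := mul_le_mul_of_nonneg_right h3 (norm_nonneg (Γ.io (h i)))
    have h5 := mul_le_mul_of_nonneg_left h2 (abs_nonneg s)
    nlinarith
  have hsmall : ∀ s : ℝ, |s| * K < 1 →
      ∃ x, Tendsto (fun i => h i ^ ⌊s * lam i⌋) 𝒰 (𝓝 x) := by
    intro s hs1
    obtain ⟨x, -, hx⟩ := Γ.cpt.ultrafilter_le_nhds' (𝒰.map fun i => h i ^ ⌊s * lam i⌋) (by
      rw [Ultrafilter.mem_map]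
      filter_upwards [hk s, hs.eventually (gt_mem_nhds (sub_pos.2 hs1))] with i h1 h2
      have := Γ.zpow_norm (h i) ⌊s * lam i⌋
      show ‖Γ.io (h i ^ ⌊s * lam i⌋)‖ ≤ 1
      linarith)
    exact ⟨x, hx⟩
  have hadd : ∀ (s t : ℝ) (x y : G), Tendsto (fun i => h i ^ ⌊s * lam i⌋) 𝒰 (𝓝 x) →
      Tendsto (fun i => h i ^ ⌊t * lam i⌋) 𝒰 (𝓝 y) →
      Tendsto (fun i => h i ^ ⌊(s + t) * lam i⌋) 𝒰 (𝓝 (x * y)) := by
    intro s t x y hx hy
    have h1 : Tendsto (fun i => h i ^ (⌊(s + t) * lam i⌋ - ⌊s * lam i⌋ - ⌊t * lam i⌋)) 𝒰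
        (𝓝 1) := by
      refine Γ.tendsto_one (squeeze_zero (g := fun i => 3 * ‖Γ.io (h i)‖)
        (fun _ => norm_nonneg _) (fun i => ?_) (by simpa using hs.const_mul 3))
      refine (Γ.zpow_norm _ _).trans (mul_le_mul_of_nonneg_right ?_ (norm_nonneg _))
      push_cast
      have a1 := abs_le.1 (hfl ((s + t) * lam i))
      have a2 := abs_le.1 (hfl (s * lam i))
      have a3 := abs_le.1 (hfl (t * lam i))
      rw [abs_le]
      constructor <;> linarith [a1.1, a1.2, a2.1, a2.2, a3.1, a3.2]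
    have h2 := (hx.mul hy).mul h1
    rw [mul_one] at h2
    refine h2.congr fun i => ?_
    rw [← zpow_add, ← zpow_add]
    congr 1
    ring
  have hall : ∀ s : ℝ, ∃ x, Tendsto (fun i => h i ^ ⌊s * lam i⌋) 𝒰 (𝓝 x) := by
    intro s
    obtain ⟨n, hn⟩ := exists_nat_gt (|s| * K)
    have hu : |s / (n + 1 : ℕ)| * K < 1 := by
      rw [abs_div, Nat.abs_cast, div_mul_eq_mul_div, div_lt_one (by positivity)]
      push_cast; linarith
    have hm : ∀ m : ℕ, ∃ x,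
        Tendsto (fun i => h i ^ ⌊(m * (s / (n + 1 : ℕ))) * lam i⌋) 𝒰 (𝓝 x) := by
      intro m
      induction m with
      | zero => exact hsmall _ (by simp)
      | succ m ih =>
        obtain ⟨x, hx⟩ := ih
        obtain ⟨y, hy⟩ := hsmall _ hu
        refine ⟨x * y, ?_⟩
        have e : ((m + 1 : ℕ) : ℝ) * (s / (n + 1 : ℕ)) =
            m * (s / (n + 1 : ℕ)) + s / (n + 1 : ℕ) := by push_cast; ring
        rw [e]
        exact hadd _ _ _ _ hx hy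
    have := hm (n + 1)
    rwa [mul_div_cancel₀ _ (by positivity)] at this
  choose X hX using hall
  let u : ℝ → I → ℝ := fun s i => ‖Γ.io (X s) - Γ.io (h i ^ ⌊s * lam i⌋)‖ +
    2 * (|s| * K + ‖Γ.io (h i)‖) ^ 2 + ‖Γ.io (h i)‖
  have hu : ∀ s, Tendsto (u s) 𝒰 (𝓝 (2 * K ^ 2 * s ^ 2)) := by
    intro s
    have h1 : Tendsto (fun i => ‖Γ.io (X s) - Γ.io (h i ^ ⌊s * lam i⌋)‖) 𝒰 (𝓝 0) := by
      have := ((tendsto_const_nhds (x := Γ.io (X s))).sub
        ((Γ.cont.tendsto _).comp (hX s))).norm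
      simpa using this
    have h2 := (h1.add (((hs.const_add (|s| * K)).pow 2).const_mul 2)).add hs
    have e : 0 + 2 * (|s| * K + 0) ^ 2 + 0 = 2 * K ^ 2 * s ^ 2 := by
      rw [add_zero, add_zero, zero_add, mul_pow, sq_abs]; ring
    rwa [e] at h2
  have hE : ∀ s, ∀ᶠ i in 𝒰, ‖Γ.io (X s) - s • lam i • Γ.io (h i)‖ ≤ u s i := by
    intro s
    filter_upwards [hk s, hs.eventually (ge_mem_nhds zero_lt_one)] with i h1 h2
    have h3 := Γ.zpow_est h2 ⌊s * lam i⌋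
    have h4 : (|(⌊s * lam i⌋ : ℝ)| * ‖Γ.io (h i)‖) ^ 2 ≤ (|s| * K + ‖Γ.io (h i)‖) ^ 2 :=
      pow_le_pow_left₀ (by positivity) h1 2
    have h5 : ‖((⌊s * lam i⌋ : ℝ) - s * lam i) • Γ.io (h i)‖ ≤ ‖Γ.io (h i)‖ := by
      rw [norm_smul, Real.norm_eq_abs]
      exact mul_le_of_le_one_left (norm_nonneg _) (hfl _)
    have e : Γ.io (X s) - s • lam i • Γ.io (h i) =
        (Γ.io (X s) - Γ.io (h i ^ ⌊s * lam i⌋)) +
        (Γ.io (h i ^ ⌊s * lam i⌋) - (⌊s * lam i⌋ : ℝ) • Γ.io (h i)) +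
        ((⌊s * lam i⌋ : ℝ) - s * lam i) • Γ.io (h i) := by
      rw [sub_smul, mul_smul]; abel
    rw [e]
    refine (norm_add₃_le).trans ?_
    simp only [u]
    linarith
  have hC : Cauchy (map (fun i => lam i • Γ.io (h i)) 𝒰) := by
    rw [Metric.cauchy_iff]
    refine ⟨inferInstance, fun ε hε => ?_⟩
    set s : ℝ := ε / (4 * K ^ 2 + 1) with hs'
    have hs0 : 0 < s := by positivity
    have hs1 : 2 * K ^ 2 * s ^ 2 < s * ε / 2 := by
      have : s * (4 * K ^ 2 + 1) = ε := by rw [hs']; field_simp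
      rw [← this]
      nlinarith
    refine ⟨{w | ‖Γ.io (X s) - s • w‖ < s * ε / 2}, ?_, fun x hx y hy => ?_⟩
    · rw [Filter.mem_map]
      filter_upwards [hE s, (hu s).eventually (gt_mem_nhds hs1)] with i h1 h2
      exact lt_of_le_of_lt h1 h2
    · have h1 : ‖s • (x - y)‖ < s * ε := by
        have e : s • (x - y) = (Γ.io (X s) - s • y) - (Γ.io (X s) - s • x) := by
          rw [smul_sub]; abel
        rw [e]
        refine lt_of_le_of_lt (norm_sub_le _ _) ?_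
        have a1 : ‖Γ.io (X s) - s • x‖ < s * ε / 2 := hx
        have a2 : ‖Γ.io (X s) - s • y‖ < s * ε / 2 := hy
        linarith
      rw [norm_smul, Real.norm_eq_abs, abs_of_pos hs0] at h1
      rw [dist_eq_norm]
      exact lt_of_mul_lt_mul_left h1 hs0.le
  obtain ⟨v, hv⟩ := CompleteSpace.complete hC
  have hv' : Tendsto (fun i => lam i • Γ.io (h i)) 𝒰 (𝓝 v) := hv
  refine ⟨X, v, fun s t => tendsto_nhds_unique (hX _) (hadd _ _ _ _ (hX s) (hX t)), hX, hv',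
    fun s => ?_⟩
  exact le_of_tendsto_of_tendsto ((tendsto_const_nhds.sub (hv'.const_smul s)).norm) (hu s) (hE s)

/-- `X` is a one parameter subgroup with velocity `v`. -/
def IsOP (X : ℝ → G) (v : B) : Prop :=
  (∀ s t, X (s + t) = X s * X t) ∧ HasDerivAt (fun t => Γ.io (X t)) v 0

theorem hom_zero {X : ℝ → G} (h : ∀ s t, X (s + t) = X s * X t) : X 0 = 1 := by
  have := h 0 0
  rw [add_zero] at this
  simpa using this

theorem hom_pow {X : ℝ → G} (h : ∀ s t, X (s + t) = X s * X t) (t : ℝ) (n : ℕ) :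
    X (n * t) = X t ^ n := by
  induction n with
  | zero => simpa using hom_zero h
  | succ n ih => push_cast; rw [add_mul, one_mul, h, ih, pow_succ]

theorem hom_neg {X : ℝ → G} (h : ∀ s t, X (s + t) = X s * X t) (t : ℝ) :
    X (-t) = (X t)⁻¹ := by
  rw [eq_inv_iff_mul_eq_one, ← h, neg_add_cancel, hom_zero h]

theorem hom_zpow {X : ℝ → G} (h : ∀ s t, X (s + t) = X s * X t) (t : ℝ) (k : ℤ) :
    X (k * t) = X t ^ k := by
  rcases Int.eq_nat_or_neg k with ⟨n, rfl | rfl⟩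
  · simpa using hom_pow h t n
  · push_cast
    rw [neg_mul, hom_neg h, hom_pow h]
    simp

theorem hom_div {X : ℝ → G} (h : ∀ s t, X (s + t) = X s * X t) (t : ℝ) {n : ℕ} (hn : 1 ≤ n) :
    X (t / n) ^ n = X t := by
  have : (n : ℝ) ≠ 0 := by exact_mod_cast (by omega : n ≠ 0)
  rw [← hom_pow h, mul_div_cancel₀ _ this]

variable {Γ}

theorem IsOP.lim {X : ℝ → G} {v : B} (h : Γ.IsOP X v) (t : ℝ) :
    Tendsto (fun n : ℕ => (n : ℝ) • Γ.io (X (t / n))) atTop (𝓝 (t • v)) :=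
  tendsto_nat_smul h.2 (by simp only [hom_zero h.1, Γ.one]) t

theorem IsOP.norm_le {X : ℝ → G} {v : B} (h : Γ.IsOP X v) (t : ℝ) :
    ‖Γ.io (X t)‖ ≤ |t| * ‖v‖ := by
  rw [← Real.norm_eq_abs, ← norm_smul]
  refine ge_of_tendsto (h.lim t).norm ?_
  filter_upwards [eventually_ge_atTop 1] with n hn
  rw [norm_smul, Real.norm_natCast, ← hom_div h.1 t hn]
  exact Γ.gauge.pow _ _

theorem IsOP.nat_mul_le {X : ℝ → G} {v : B} (h : Γ.IsOP X v) (t : ℝ) {n : ℕ} (hn : 1 ≤ n) :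
    n * ‖Γ.io (X (t / n))‖ ≤ |t| * ‖v‖ := by
  have hn0 : (0 : ℝ) < n := by exact_mod_cast hn
  have := h.norm_le (t / n)
  rw [abs_div, Nat.abs_cast, div_mul_eq_mul_div, le_div_iff₀ hn0] at this
  linarith

theorem IsOP.sq_est {X : ℝ → G} {v : B} (h : Γ.IsOP X v) {t : ℝ} (ht : |t| * ‖v‖ ≤ 1) :
    ‖Γ.io (X t) - t • v‖ ≤ (|t| * ‖v‖) ^ 2 := by
  refine le_of_tendsto ((tendsto_const_nhds (x := Γ.io (X t))).sub (h.lim t)).norm ?_
  filter_upwards [eventually_ge_atTop 1] with n hn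
  have hn0 : (1 : ℝ) ≤ n := by exact_mod_cast hn
  have h1 := h.nat_mul_le t hn
  have h2 := Γ.pow_est (g := X (t / n)) (by nlinarith [norm_nonneg (Γ.io (X (t / n)))]) n
  rw [hom_div h.1 t hn] at h2
  exact h2.trans (pow_le_pow_left₀ (by positivity) h1 2)

theorem IsOP.dist_le {X Y : ℝ → G} {v w : B} (h : Γ.IsOP X v) (h' : Γ.IsOP Y w) {t : ℝ}
    (ht : |t| * ‖w‖ ≤ 1) : ‖Γ.io (X t) - Γ.io (Y t)‖ ≤ 2 * (|t| * ‖v - w‖) := by
  rw [← Real.norm_eq_abs, ← norm_smul, smul_sub]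
  refine ge_of_tendsto (((h.lim t).sub (h'.lim t)).norm.const_mul 2) ?_
  filter_upwards [eventually_ge_atTop 1] with n hn
  have h1 := Γ.split (X (t / n)) n ((h'.nat_mul_le t hn).trans ht)
  rw [hom_div h.1 t hn, hom_div h'.1 t hn] at h1
  rw [← smul_sub, norm_smul, Real.norm_natCast]
  linarith

theorem IsOP.unique {X Y : ℝ → G} {v : B} (h : Γ.IsOP X v) (h' : Γ.IsOP Y v) : X = Y := by
  ext t
  obtain ⟨n, hn⟩ := exists_nat_gt (|t| * ‖v‖)
  have hn1 : 1 ≤ n + 1 := by omega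
  rw [← hom_div h.1 t hn1, ← hom_div h'.1 t hn1]
  congr 1
  have := h.dist_le h' (t := t / (n + 1 : ℕ)) (by
    rw [abs_div, Nat.abs_cast, div_mul_eq_mul_div, div_le_one (by positivity)]
    push_cast; linarith)
  rw [sub_self, norm_zero, mul_zero, mul_zero, norm_le_zero_iff, sub_eq_zero] at this
  exact Γ.inj this

theorem IsOP.continuous {X : ℝ → G} {v : B} (h : Γ.IsOP X v) : Continuous X := by
  rw [continuous_iff_continuousAt]
  intro t
  refine Γ.tendsto_of (squeeze_zero (g := fun s => |s - t| * ‖v‖) (fun _ => norm_nonneg _)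
    (fun s => ?_) ?_)
  · rw [norm_sub_rev, Γ.dist, ← hom_neg h.1, ← h.1, neg_add_eq_sub]
    exact h.norm_le _
  · have : Continuous fun s : ℝ => |s - t| * ‖v‖ := by fun_prop
    simpa using this.tendsto t

theorem IsOP.smul {X : ℝ → G} {v : B} (h : Γ.IsOP X v) (c : ℝ) :
    Γ.IsOP (fun t => X (t * c)) (c • v) := by
  refine ⟨fun s t => by simp only [add_mul, h.1], ?_⟩
  have h2 : HasDerivAt (fun u : ℝ => u * c) c 0 := by
    simpa using (hasDerivAt_id (0 : ℝ)).mul_const c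
  have h3 : HasDerivAt (fun t => Γ.io (X t)) v (0 * c) := by simpa using h.2
  exact h3.scomp 0 h2

theorem IsOP.lim_mul {X Y : ℝ → G} {v w : B} (h : Γ.IsOP X v) (h' : Γ.IsOP Y w) (t : ℝ) :
    Tendsto (fun n : ℕ => (n : ℝ) • Γ.io (X (t / n) * Y (t / n))) atTop
      (𝓝 (t • v + t • w)) := by
  have h0 : Tendsto (fun n : ℕ => ‖Γ.io (Y (t / n))‖) atTop (𝓝 0) := by
    refine squeeze_zero (fun _ => norm_nonneg _) (fun n => h'.norm_le _) ?_
    have := ((tendsto_const_div_atTop_nhds_zero_nat t).abs).mul_const ‖w‖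
    simpa using this
  have h1 : Tendsto (fun n : ℕ => (n : ℝ) • (Γ.io (X (t / n) * Y (t / n)) - Γ.io (X (t / n)) -
      Γ.io (Y (t / n)))) atTop (𝓝 0) := by
    rw [tendsto_zero_iff_norm_tendsto_zero]
    refine squeeze_zero' (g := fun n : ℕ => |t| * ‖v‖ * ‖Γ.io (Y (t / n))‖)
      (Eventually.of_forall fun _ => norm_nonneg _) ?_ (by simpa using h0.const_mul (|t| * ‖v‖))
    filter_upwards [eventually_ge_atTop 1, h0.eventually (ge_mem_nhds zero_lt_one)] with n hn h2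
    rw [norm_smul, Real.norm_natCast]
    have h3 := mul_le_mul_of_nonneg_left (Γ.mul (X (t / n)) _ h2) (n.cast_nonneg (α := ℝ))
    have h4 := mul_le_mul_of_nonneg_right (h.nat_mul_le t hn) (norm_nonneg (Γ.io (Y (t / n))))
    linarith
  have h2 := (h1.add (h.lim t)).add (h'.lim t)
  rw [zero_add] at h2
  refine h2.congr fun n => ?_
  rw [smul_sub, smul_sub]
  abel

variable (Γ)

theorem exists_op {I : Type*} (𝒰 : Ultrafilter I) (h : I → G) (lam : I → ℝ) (K : ℝ)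
    (hl : Tendsto lam 𝒰 atTop) (hK : ∀ᶠ i in 𝒰, lam i * ‖Γ.io (h i)‖ ≤ K) :
    ∃ (X : ℝ → G) (v : B), Γ.IsOP X v ∧
      (∀ s, Tendsto (fun i => h i ^ ⌊s * lam i⌋) 𝒰 (𝓝 (X s))) ∧
      Tendsto (fun i => lam i • Γ.io (h i)) 𝒰 (𝓝 v) := by
  obtain ⟨X, v, h1, h2, h3, h4⟩ := Γ.limit 𝒰 h lam K hl hK
  exact ⟨X, v, ⟨h1, hasDerivAt_of_sq (Eventually.of_forall h4)⟩, h2, h3⟩

/-- The space of velocities of one parameter subgroups. -/
def lie : Submodule ℝ B where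
  carrier := {v | ∃ X, Γ.IsOP X v}
  zero_mem' := ⟨fun _ => 1, fun _ _ => by simp, hasDerivAt_const _ _⟩
  smul_mem' := by
    rintro c v ⟨X, hX⟩
    exact ⟨_, hX.smul c⟩
  add_mem' := by
    rintro v w ⟨X, hX⟩ ⟨Y, hY⟩
    have h1 := (hX.lim_mul hY 1).mono_left Nat.hyperfilter_le_atTop
    rw [one_smul, one_smul] at h1
    obtain ⟨Z, u, hZ, -, hu⟩ := Γ.exists_op (hyperfilter ℕ)
      (fun n : ℕ => X (1 / n) * Y (1 / n)) (fun n => (n : ℝ)) (‖v + w‖ + 1)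
      (tendsto_natCast_atTop_atTop.mono_left Nat.hyperfilter_le_atTop) (by
        filter_upwards [h1.norm.eventually (ge_mem_nhds (lt_add_one _))] with n hn
        rwa [norm_smul, Real.norm_natCast] at hn)
    exact ⟨Z, tendsto_nhds_unique hu h1 ▸ hZ⟩

/-- A continuous one parameter subgroup has a velocity. -/
theorem exists_velocity {Y : ℝ → G} (hY : ∀ s t, Y (s + t) = Y s * Y t) (hc : Continuous Y) :
    ∃ v, Γ.IsOP Y v := by
  have h1 : ∀ᶠ t in 𝓝 (0 : ℝ), ‖Γ.io (Y t)‖ ≤ 1 / 2 := by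
    have := (Γ.cont.comp hc).norm.tendsto 0
    simp only [Function.comp, hom_zero hY, Γ.one, norm_zero] at this
    exact this.eventually (ge_mem_nhds (by norm_num))
  obtain ⟨δ, hδ, h2⟩ := Metric.eventually_nhds_iff.1 h1
  set t0 := δ / 2 with ht0
  have ht : 0 < t0 := by positivity
  have h3 : ∀ s, 0 ≤ s → s ≤ t0 → ‖Γ.io (Y s)‖ ≤ 1 / 2 := fun s a b => h2 (by
    rw [dist_zero_right, Real.norm_eq_abs, abs_of_nonneg a]; linarith)
  have h4 : ∀ n : ℕ, 1 ≤ n → n * ‖Γ.io (Y (t0 / n))‖ ≤ 1 := by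
    intro n hn
    have hn0 : (1 : ℝ) ≤ n := by exact_mod_cast hn
    have h5 : ‖Γ.io (Y (t0 / n))‖ ≤ 1 / 2 := h3 _ (by positivity) (div_le_self ht.le hn0)
    have h6 := norm_pow_sub (f := Γ.io) Γ.one (g := Y (t0 / n))
      (e := 1 / 2 * ‖Γ.io (Y (t0 / n))‖) n fun i hi => by
        refine (Γ.mul _ _ (by linarith)).trans (mul_le_mul_of_nonneg_right ?_ (norm_nonneg _))
        rw [← hom_pow hY]
        refine h3 _ (by positivity) ?_
        have : (i : ℝ) ≤ n := by exact_mod_cast hi.le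
        rw [mul_div_assoc', div_le_iff₀ (by positivity)]
        nlinarith
    rw [hom_div hY t0 hn] at h6
    have h7 := norm_sub_norm_le ((n : ℝ) • Γ.io (Y (t0 / n))) (Γ.io (Y t0))
    rw [norm_sub_rev, norm_smul, Real.norm_natCast] at h7
    have h8 := h3 t0 ht.le le_rfl
    linarith
  obtain ⟨Z, u, hZ, hlim, -⟩ := Γ.exists_op (hyperfilter ℕ)
    (fun n : ℕ => Y (t0 / n)) (fun n => (n : ℝ)) 1
    (tendsto_natCast_atTop_atTop.mono_left Nat.hyperfilter_le_atTop)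
    ((eventually_ge_atTop 1).filter_mono Nat.hyperfilter_le_atTop |>.mono h4)
  have h5 : ∀ s, Z s = Y (s * t0) := by
    intro s
    refine tendsto_nhds_unique (hlim s) ?_
    simp only [← hom_zpow hY]
    refine ((hc.tendsto _).comp ?_).mono_left Nat.hyperfilter_le_atTop
    rw [tendsto_iff_norm_sub_tendsto_zero]
    refine squeeze_zero' (g := fun n : ℕ => t0 / n) (Eventually.of_forall fun _ => norm_nonneg _)
      ?_ (tendsto_const_div_atTop_nhds_zero_nat t0)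
    filter_upwards [eventually_ge_atTop 1] with n hn
    have hn0 : (0 : ℝ) < n := by exact_mod_cast hn
    have e : (⌊s * n⌋ : ℝ) * (t0 / n) - s * t0 = (⌊s * n⌋ - s * n) * (t0 / n) := by
      field_simp
    rw [e, norm_mul, Real.norm_eq_abs, Real.norm_eq_abs, abs_of_pos (by positivity : 0 < t0 / n)]
    refine mul_le_of_le_one_left (by positivity) ?_
    rw [abs_le]; constructor <;> linarith [Int.floor_le (s * n), Int.lt_floor_add_one (s * n)]
  refine ⟨t0⁻¹ • u, ?_⟩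
  have h6 := hZ.smul t0⁻¹
  simp only [h5, inv_mul_cancel_right₀ ht.ne'] at h6
  exact h6

end GMap

end Vale.Agent.P228Z
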