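import Vale.Agent.P228Z.Ad

/-!
# The group law is smooth in exponential coordinates
-/

set_option linter.unusedSectionVars false

namespace Vale.Agent.P228Z

open Topology Filter Set Metric NormedSpace
open scoped ContDiff

theorem hasFDerivAt_of_sq {E F : Type*} [NormedAddCommGroup E] [NormedSpace ℝ E]
    [NormedAddCommGroup F] [NormedSpace ℝ F] {f : E → F} {f' : E →L[ℝ] F} {C : ℝ}
    (h : ∀ᶠ w in 𝓝 (0 : E), ‖f w - f' w‖ ≤ C * ‖w‖ ^ 2) : HasFDerivAt f f' 0 := by
  have h0 : f 0 = 0 := by simpa using h.self_of_nhds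
  rw [hasFDerivAt_iff_isLittleO]
  simp only [h0, sub_zero]
  have h1 : (fun w : E => f w - f' w) =O[𝓝 0] fun w : E => ‖w‖ ^ 2 := by
    refine Asymptotics.IsBigO.of_bound C ?_
    filter_upwards [h] with s hs
    simpa using hs
  exact h1.trans_isLittleO (Asymptotics.isLittleO_norm_pow_id (by norm_num))

namespace EData

open GMap

variable {G : Type*} [Group G] [TopologicalSpace G] [IsTopologicalGroup G] [T2Space G]
  {B : Type*} [NormedAddCommGroup B] [NormedSpace ℝ B] [CompleteSpace B] {Γ : GMap G B}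
  {E : Type*} [NormedAddCommGroup E] [NormedSpace ℝ E] [FiniteDimensional ℝ E] [CompleteSpace E]
  (D : EData Γ E)

/-- The increment of the exponential map at `z`, in logarithmic coordinates. -/
noncomputable def th (z w : E) : E := D.lg ((D.ex z)⁻¹ * D.ex (z + w))

theorem th_mem {z : E} (hz : ‖z‖ ≤ 1) :
    ∀ᶠ w in 𝓝 (0 : E), (D.ex z)⁻¹ * D.ex (z + w) ∈ D.dom := by
  have h1 : ContinuousAt (fun w : E => (D.ex z)⁻¹ * D.ex (z + w)) 0 := by
    refine continuousAt_const.mul (ContinuousAt.comp (g := D.ex) ?_ (by fun_prop))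
    simpa using D.ex_continuousAt hz
  refine h1.eventually (D.isOpen_dom.mem_nhds ?_)
  simpa using D.one_mem

theorem th_zero (z : E) : D.th z 0 = 0 := by simp [th, D.lg_one]

theorem th_deriv {z : E} (hz : ‖z‖ ≤ 1 / 2) : HasFDerivAt (D.th z) (D.ph z) 0 := by
  refine hasFDerivAt_of_sq (C := 22) ?_
  filter_upwards [D.th_mem (z := z) (by linarith),
    closedBall_mem_nhds (0 : E) (show (0 : ℝ) < 1 / 2 by norm_num)] with w h1 h2
  rw [mem_closedBall_zero_iff] at h2
  have a1 := D.lg_est h1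
  have a2 := D.ex_deriv_est hz h2
  have a3 : ‖Γ.io ((D.ex z)⁻¹ * D.ex (z + w))‖ ≤ 2 * ‖w‖ := by
    rw [← Γ.dist, norm_sub_rev]
    simpa using D.ex_dist_le (z + w) (w := z) (by linarith)
  have a4 := pow_le_pow_left₀ (norm_nonneg _) a3 2
  rw [← D.j.norm_map, map_sub]
  have a5 := norm_sub_le_norm_sub_add_norm_sub (D.j (D.th z w))
    (Γ.io ((D.ex z)⁻¹ * D.ex (z + w))) (D.j (D.ph z w))
  rw [norm_sub_rev] at a1
  unfold th at a5 ⊢
  nlinarith

theorem mul_deriv : HasFDerivAt (fun x : E × E => D.lg (D.ex x.1 * D.ex x.2))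
    (ContinuousLinearMap.fst ℝ E E + ContinuousLinearMap.snd ℝ E E) 0 := by
  refine hasFDerivAt_of_sq (C := 4) ?_
  have h1 : ContinuousAt (fun x : E × E => D.ex x.1 * D.ex x.2) 0 :=
    (ContinuousAt.comp (g := D.ex) (D.ex_continuousAt (by simp)) continuousAt_fst).mul
      (ContinuousAt.comp (g := D.ex) (D.ex_continuousAt (by simp)) continuousAt_snd)
  filter_upwards [h1.eventually (D.isOpen_dom.mem_nhds (by simpa [D.ex_zero] using D.one_mem)),
    ball_mem_nhds (0 : E × E) (show (0 : ℝ) < 1 / 32 by norm_num)] with x a1 a2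
  rw [mem_ball_zero_iff] at a2
  have b1 := norm_fst_le x
  have b2 := norm_snd_le x
  have b3 : ‖x.1 + x.2‖ < 1 / 16 := by linarith [norm_add_le x.1 x.2]
  have b4 := D.lg_dist a1 (D.ex_mem b3)
  rw [D.lg_ex b3] at b4
  have b5 := D.ex_mul_est (v := x.1) (w := x.2) (by linarith) (by linarith)
  have b6 : ‖x.1‖ * ‖x.2‖ ≤ ‖x‖ * ‖x‖ := mul_le_mul b1 b2 (norm_nonneg _) (norm_nonneg _)
  show ‖D.lg (D.ex x.1 * D.ex x.2) - (x.1 + x.2)‖ ≤ _
  nlinarith

theorem isUnit_ph {z : E} (hz : ‖z‖ ≤ 1 / 8) : IsUnit (D.ph z) := by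
  have := (Units.oneSub (1 - D.ph z) (D.ph_sub_one hz)).isUnit
  simpa using this

/-- The translated group law in logarithmic coordinates. -/
noncomputable def law (a : G) (x : E × E) : E := D.lg (a * D.ex x.1 * D.ex x.2)

/-- The domain of `law`. -/
def lawDom (a : G) : Set (E × E) :=
  {x | ‖x.1‖ < 1 / 16 ∧ ‖x.2‖ < 1 / 16 ∧ a * D.ex x.1 * D.ex x.2 ∈ D.dom}

theorem law_aux (a : G) {x : E × E} (h1 : ‖x.1‖ < 1 / 16) (h2 : ‖x.2‖ < 1 / 16) :
    ContinuousAt (fun x : E × E => a * D.ex x.1 * D.ex x.2) x :=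
  (continuousAt_const.mul (ContinuousAt.comp (g := D.ex) (D.ex_continuousAt (by linarith))
    continuousAt_fst)).mul
    (ContinuousAt.comp (g := D.ex) (D.ex_continuousAt (by linarith)) continuousAt_snd)

theorem isOpen_lawDom (a : G) : IsOpen (D.lawDom a) := by
  rw [isOpen_iff_mem_nhds]
  rintro x ⟨h1, h2, h3⟩
  filter_upwards [continuous_fst.norm.continuousAt.eventually (gt_mem_nhds h1),
    continuous_snd.norm.continuousAt.eventually (gt_mem_nhds h2),
    (D.law_aux a h1 h2).eventually (D.isOpen_dom.mem_nhds h3)] with y a1 a2 a3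
  exact ⟨a1, a2, a3⟩

theorem law_continuousAt (a : G) {x : E × E} (hx : x ∈ D.lawDom a) : ContinuousAt (D.law a) x :=
  ContinuousAt.comp (g := D.lg) (D.lg_continuousAt hx.2.2) (D.law_aux a hx.1 hx.2.1)

/-- The derivative of `law`. -/
noncomputable def lawD (a : G) (x : E × E) : E × E →L[ℝ] E :=
  Ring.inverse (D.ph (D.law a x)) ∘L
    ((D.Ad (D.ex (-x.2)) ∘L D.ph x.1) ∘L ContinuousLinearMap.fst ℝ E E +
      D.ph x.2 ∘L ContinuousLinearMap.snd ℝ E E)

theorem law_deriv (a : G) {x : E × E} (hx : x ∈ D.lawDom a) :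
    HasFDerivAt (D.law a) (D.lawD a x) x := by
  obtain ⟨h1, h2, h3⟩ := hx
  set Z := D.law a x with hZ
  have hZn : ‖Z‖ < 1 / 16 := D.lg_norm h3
  have hZe : D.ex Z = a * D.ex x.1 * D.ex x.2 := D.ex_lg h3
  have d1 : HasFDerivAt (fun y : E × E => D.th x.1 (y.1 - x.1))
      (D.ph x.1 ∘L ContinuousLinearMap.fst ℝ E E) x := by
    refine HasFDerivAt.comp (g := D.th x.1) x ?_ (hasFDerivAt_fst.sub_const x.1)
    simpa using D.th_deriv (z := x.1) (by linarith)
  have d2 : HasFDerivAt (fun y : E × E => D.th x.2 (y.2 - x.2))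
      (D.ph x.2 ∘L ContinuousLinearMap.snd ℝ E E) x := by
    refine HasFDerivAt.comp (g := D.th x.2) x ?_ (hasFDerivAt_snd.sub_const x.2)
    simpa using D.th_deriv (z := x.2) (by linarith)
  have d3 := ((D.Ad (D.ex (-x.2))).hasFDerivAt.comp x d1).prodMk d2
  have d4 := HasFDerivAt.comp (g := fun x : E × E => D.lg (D.ex x.1 * D.ex x.2)) x
    (by
      simp only [Function.comp, sub_self, D.th_zero, map_zero]
      exact D.mul_deriv) d3
  have hc : ContinuousAt (fun y => D.law a y - Z) x :=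
    (D.law_continuousAt a ⟨h1, h2, h3⟩).sub continuousAt_const
  have hf : HasFDerivAt (D.th Z) (D.ph Z) ((fun y => D.law a y - Z) x) := by
    simpa [← hZ] using D.th_deriv (z := Z) (by linarith)
  have hu := D.isUnit_ph (z := Z) (by linarith)
  have t1 : Tendsto (fun y : E × E => y.1 - x.1) (𝓝 x) (𝓝 0) := by
    have : Continuous fun y : E × E => y.1 - x.1 := by fun_prop
    simpa using this.tendsto x
  have t2 : Tendsto (fun y : E × E => y.2 - x.2) (𝓝 x) (𝓝 0) := by
    have : Continuous fun y : E × E => y.2 - x.2 := by fun_prop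
    simpa using this.tendsto x
  have d5 := HasFDerivAt.of_comp_of_leftInverse (f'symm := Ring.inverse (D.ph Z)) hc hf d4
    (by
      filter_upwards [t1.eventually (D.th_mem (z := x.1) (by linarith)),
        t2.eventually (D.th_mem (z := x.2) (by linarith)),
        (D.isOpen_lawDom a).mem_nhds ⟨h1, h2, h3⟩] with y a1 a2 a3
      rw [add_sub_cancel] at a1 a2
      simp only [Function.comp, th, D.ex_Ad, D.ex_lg a1, D.ex_lg a2, add_sub_cancel, hZe, law,
        D.ex_lg a3.2.2, D.ex_neg]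
      congr 1
      simp [mul_assoc])
    (fun v => by
      have := congrArg (fun T : E →L[ℝ] E => T v) (Ring.inverse_mul_cancel _ hu)
      simpa using this)
  have d6 := d5.add_const Z
  simp only [sub_add_cancel] at d6
  refine d6.congr_fderiv ?_
  ext1 <;> ext1 <;> simp [lawD, ← hZ]

theorem law_smooth (a : G) {x : E × E} (hx : x ∈ D.lawDom a) : ContDiffAt ℝ ∞ (D.law a) x := by
  rw [contDiffAt_infty]
  intro n
  induction n generalizing x with
  | zero =>
    rw [Nat.cast_zero, contDiffAt_zero]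
    exact ⟨_, (D.isOpen_lawDom a).mem_nhds hx,
      fun y hy => (D.law_continuousAt a hy).continuousWithinAt⟩
  | succ n ih =>
    push_cast
    rw [contDiffAt_succ_iff_hasFDerivAt]
    refine ⟨D.lawD a, ⟨_, (D.isOpen_lawDom a).mem_nhds hx, fun y hy => D.law_deriv a hy⟩, ?_⟩
    have hph : ContDiff ℝ n D.ph := D.contDiff_ph.of_le (by exact_mod_cast le_top)
    have hAd : ContDiff ℝ n fun v => D.Ad (D.ex v) :=
      D.contDiff_Ad_ex.of_le (by exact_mod_cast le_top)
    have hZn : ‖D.law a x‖ < 1 / 16 := D.lg_norm hx.2.2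
    obtain ⟨u, hu⟩ := D.isUnit_ph (z := D.law a x) (by linarith)
    have h1 : ContDiffAt ℝ n (fun y => Ring.inverse (D.ph (D.law a y))) x := by
      refine ContDiffAt.comp (g := Ring.inverse) x ?_ (hph.contDiffAt.comp x (ih hx))
      show ContDiffAt ℝ n Ring.inverse (D.ph (D.law a x))
      rw [← hu]
      exact contDiffAt_ringInverse ℝ u
    have h2 : ContDiff ℝ n fun y : E × E => D.Ad (D.ex (-y.2)) := hAd.comp contDiff_snd.neg
    have h3 : ContDiff ℝ n fun y : E × E => D.ph y.1 := hph.comp contDiff_fst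
    have h4 : ContDiff ℝ n fun y : E × E => D.ph y.2 := hph.comp contDiff_snd
    exact h1.clm_comp ((((h2.clm_comp h3).clm_comp contDiff_const).add
      (h4.clm_comp contDiff_const)).contDiffAt)

end EData

end Vale.Agent.P228Z
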